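import Vale.Agent.Lib.P308.Core

/-!
# From subgraph matchings to partner maps and back; the two main counting theorems
-/

namespace Vale.Agent.Lib.P308

open Classical

variable {V : Type*} {G : SimpleGraph V}

/-- partner map of a subgraph matching -/
noncomputable def pmap (M : G.Subgraph) (v : V) : V :=
  if h : ∃ w, M.Adj v w then h.choose else v

theorem pmap_adj {M : G.Subgraph} (hM : M.IsMatching) {v w : V} (h : M.Adj v w) :
    pmap M v = w := by
  have hex : ∃ w, M.Adj v w := ⟨w, h⟩
  rw [pmap, dif_pos hex]
  exact hM.eq_of_adj_left hex.choose_spec h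

theorem pmap_of_not {M : G.Subgraph} {v : V} (h : ¬ ∃ w, M.Adj v w) : pmap M v = v := by
  rw [pmap, dif_neg h]

theorem pmap_spec {M : G.Subgraph} {v : V} (h : pmap M v ≠ v) : M.Adj v (pmap M v) := by
  by_cases hex : ∃ w, M.Adj v w
  · rw [pmap, dif_pos hex]
    exact hex.choose_spec
  · exact absurd (pmap_of_not hex) h

theorem pmap_isPartner {M : G.Subgraph} (hM : M.IsMatching) : IsPartner G (pmap M) := by
  constructor
  · intro v
    by_cases hex : ∃ w, M.Adj v w
    · obtain ⟨w, hw⟩ := hex
      rw [pmap_adj hM hw, pmap_adj hM hw.symm]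
    · rw [pmap_of_not hex, pmap_of_not hex]
  · intro v hv
    exact M.adj_sub (pmap_spec hv)

theorem pmap_fix_iff {M : G.Subgraph} (hM : M.IsMatching) (v : V) :
    pmap M v = v ↔ v ∉ M.verts := by
  constructor
  · intro h hv
    obtain ⟨w, hw, -⟩ := hM hv
    rw [pmap_adj hM hw] at h
    subst h
    exact G.loopless.irrefl _ (M.adj_sub hw)
  · intro hv
    apply pmap_of_not
    rintro ⟨w, hw⟩
    exact hv (M.edge_vert hw)

theorem pmap_injOn : Set.InjOn (pmap (G := G)) {M | M.IsMatching} := by
  intro M₁ h₁ M₂ h₂ heq
  have h₁' : M₁.IsMatching := h₁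
  have h₂' : M₂.IsMatching := h₂
  have key : ∀ (M : G.Subgraph), M.IsMatching → ∀ v w, M.Adj v w ↔ (pmap M v = w ∧ w ≠ v) := by
    intro M hM v w
    constructor
    · intro h
      refine ⟨pmap_adj hM h, ?_⟩
      rintro rfl
      exact G.loopless.irrefl _ (M.adj_sub h)
    · rintro ⟨h1, h2⟩
      have := pmap_spec (M := M) (v := v) (by rw [h1]; exact h2)
      rwa [h1] at this
  apply SimpleGraph.Subgraph.ext
  · ext v
    have a1 := pmap_fix_iff h₁' v
    have a2 := pmap_fix_iff h₂' v
    rw [heq] at a1
    have : v ∉ M₁.verts ↔ v ∉ M₂.verts := a1.symm.trans a2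
    exact not_iff_not.mp this
  · funext v w
    apply propext
    rw [key M₁ h₁', key M₂ h₂', heq]

/-- the spanning subgraph whose edges are the pairs `{v, f v}` -/
def toSubgraph (G : SimpleGraph V) (f : V → V) : G.Subgraph where
  verts := Set.univ
  Adj v w := (f v = w ∧ f w = v) ∧ G.Adj v w
  adj_sub h := h.2
  edge_vert _ := Set.mem_univ _
  symm := ⟨fun _ _ h => ⟨⟨h.1.2, h.1.1⟩, h.2.symm⟩⟩

theorem toSubgraph_isPerfectMatching {f : V → V} (hf : f ∈ perfect G) :
    (toSubgraph G f).IsPerfectMatching := by
  rw [SimpleGraph.Subgraph.isPerfectMatching_iff]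
  intro v
  refine ⟨f v, ⟨⟨rfl, hf.1.invol v⟩, hf.1.adj v (hf.2 v)⟩, ?_⟩
  intro w hw
  exact hw.1.1.symm

theorem toSubgraph_injOn : Set.InjOn (toSubgraph G) (perfect G) := by
  intro f₁ h₁ f₂ h₂ heq
  funext v
  have a : (toSubgraph G f₁).Adj v (f₁ v) := ⟨⟨rfl, h₁.1.invol v⟩, h₁.1.adj v (h₁.2 v)⟩
  rw [heq] at a
  exact a.1.1.symm

theorem ncard_subgraph_nearPerfect_le [Finite V] :
    {M : G.Subgraph | M.IsMatching ∧ (M.vertsᶜ).ncard = 2}.ncard ≤ (nearPerfect G).ncard := by
  apply Set.ncard_le_ncard_of_injOn pmap
  · intro M hM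
    refine ⟨pmap_isPartner hM.1, ?_⟩
    have : {y | pmap M y = y} = M.vertsᶜ := by
      ext y
      exact pmap_fix_iff hM.1 y
    rw [this]
    exact hM.2
  · exact pmap_injOn.mono (fun M hM => hM.1)

theorem ncard_perfect_le_subgraph [Finite V] :
    (perfect G).ncard ≤ {M : G.Subgraph | M.IsPerfectMatching}.ncard := by
  apply Set.ncard_le_ncard_of_injOn (toSubgraph G)
  · intro f hf
    exact toSubgraph_isPerfectMatching hf
  · exact toSubgraph_injOn

theorem perfect_nonempty_of_subgraph {M : G.Subgraph} (hM : M.IsPerfectMatching) :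
    (perfect G).Nonempty := by
  refine ⟨pmap M, pmap_isPartner hM.1, ?_⟩
  intro y hy
  have := (pmap_fix_iff hM.1 y).mp hy
  exact this (hM.2 y)

/-- **Bounded independence number.** -/
theorem nearPerfect_le_of_indep [Finite V] (G : SimpleGraph V) (t : ℕ)
    (hα : ∀ S : Finset V, G.IsIndepSet (S : Set V) → S.card ≤ t)
    (hPM : (perfect G).Nonempty) :
    (nearPerfect G).ncard ≤ Nat.card V ^ (3 * t) * (perfect G).ncard := by
  apply card_nearPerfect_le
  intro m hm
  obtain ⟨f, hf⟩ := hPM
  have hne : {y | m y = y}.Nonempty := by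
    rw [← Set.ncard_pos (Set.toFinite _), hm.2]
    norm_num
  obtain ⟨u, hu⟩ := hne
  have hex : ∃ k, ∃ x, Aug G m k x := exists_aug hm.1 hf.1 hf.2 hu
  obtain ⟨x, hx⟩ := Nat.find_spec hex
  have hmin : ∀ k' x', k' < Nat.find hex → ¬ Aug G m k' x' := by
    intro k' x' hlt haug
    exact Nat.find_min hex hlt ⟨x', haug⟩
  have := hx.bound_of_indep hm.1 hmin hα
  exact ⟨Nat.find hex, x, hx, by omega⟩

/-- **Ore-type degree condition.** -/
theorem nearPerfect_le_of_ore [Finite V] (G : SimpleGraph V)
    (hOre : ∀ u v : V, u ≠ v → ¬ G.Adj u v →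
      Nat.card V ≤ (G.neighborSet u).ncard + (G.neighborSet v).ncard + 1) :
    (nearPerfect G).ncard ≤ Nat.card V ^ 2 * (perfect G).ncard := by
  apply card_nearPerfect_le
  intro m hm
  obtain ⟨u, v, huv, hset⟩ := Set.ncard_eq_two.mp hm.2
  have hu : m u = u := by
    have : u ∈ {y | m y = y} := by rw [hset]; simp
    exact this
  have hv : m v = v := by
    have : v ∈ {y | m y = y} := by rw [hset]; simp
    exact this
  have hfix : ∀ y, m y = y → y = u ∨ y = v := by
    intro y hy
    have : y ∈ ({u, v} : Set V) := by rw [← hset]; exact hy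
    simpa using this
  by_cases hadj : G.Adj u v
  · obtain ⟨x, x0, x1⟩ : ∃ x : ℕ → V, x 0 = u ∧ x 1 = v :=
      ⟨fun s => if s = 0 then u else v, by simp, by simp⟩
    refine ⟨0, x, ⟨?_, ?_, ?_, ?_, ?_, ?_⟩, by omega⟩
    · rw [x0]; exact hu
    · rw [x1]; exact hv
    · intro s h1 h0; omega
    · intro s hs
      have : s = 0 := by omega
      subst this
      rw [x0, x1, hu]
      exact hadj
    · intro s s' hs hs' h
      have e1 : s = 0 ∨ s = 1 := by omega
      have e2 : s' = 0 ∨ s' = 1 := by omega
      rcases e1 with rfl | rfl <;> rcases e2 with rfl | rfl <;>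
        simp only [x0, x1, hu, hv] at h <;>
        first
        | rfl
        | exact absurd h huv
        | exact absurd h.symm huv
    · intro s s' hs hs' h
      have e1 : s = 0 ∨ s = 1 := by omega
      have e2 : s' = 0 ∨ s' = 1 := by omega
      rcases e1 with rfl | rfl <;> rcases e2 with rfl | rfl <;>
        simp only [x0, x1, hu, hv] at h <;>
        first
        | rfl
        | exact absurd h huv
        | exact absurd h.symm huv
  · -- find y adjacent to u whose partner is adjacent to v
    have hex : ∃ y, G.Adj u y ∧ G.Adj (m y) v := by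
      by_contra hne
      push Not at hne
      have hO := hOre u v huv hadj
      have hsub1 : m '' (G.neighborSet u) ⊆ ({u, v} : Set V)ᶜ := by
        rintro z ⟨y, hy, rfl⟩
        have hy' : G.Adj u y := hy
        intro hz
        have hz' : m y = u ∨ m y = v := by simpa using hz
        rcases hz' with e | e
        · have : y = u := by rw [← hm.1.invol y, e, hu]
          subst this
          exact G.loopless.irrefl _ hy'
        · have : y = v := by rw [← hm.1.invol y, e, hv]
          subst this
          exact hadj hy'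
      have hsub2 : G.neighborSet v ⊆ ({u, v} : Set V)ᶜ := by
        intro z hz
        have hz' : G.Adj v z := hz
        intro hzz
        have : z = u ∨ z = v := by simpa using hzz
        rcases this with e | e
        · subst e
          exact hadj hz'.symm
        · subst e
          exact G.loopless.irrefl _ hz'
      have hdisj : Disjoint (m '' (G.neighborSet u)) (G.neighborSet v) := by
        rw [Set.disjoint_left]
        rintro z ⟨y, hy, rfl⟩ hz
        exact hne y hy (SimpleGraph.Adj.symm hz)
      have hcard1 : (m '' (G.neighborSet u)).ncard = (G.neighborSet u).ncard :=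
        Set.ncard_image_of_injective _ (fun a b h => hm.1.inj h)
      have hunion : (m '' (G.neighborSet u) ∪ G.neighborSet v).ncard =
          (G.neighborSet u).ncard + (G.neighborSet v).ncard := by
        rw [Set.ncard_union_eq hdisj (Set.toFinite _) (Set.toFinite _), hcard1]
      have hle : (m '' (G.neighborSet u) ∪ G.neighborSet v).ncard ≤ (({u, v} : Set V)ᶜ).ncard :=
        Set.ncard_le_ncard (Set.union_subset hsub1 hsub2) (Set.toFinite _)
      have hcompl : (({u, v} : Set V)ᶜ).ncard + 2 = Nat.card V := by
        have := Set.ncard_add_ncard_compl ({u, v} : Set V)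
        rw [Set.ncard_pair huv] at this
        omega
      omega
    obtain ⟨y, hy1, hy2⟩ := hex
    have hyu : y ≠ u := by
      rintro rfl
      exact G.loopless.irrefl _ hy1
    have hyv : y ≠ v := by
      rintro rfl
      exact hadj hy1
    have hmy : m y ≠ y := by
      intro h
      rcases hfix y h with e | e
      · exact hyu e
      · exact hyv e
    have hmyu : m y ≠ u := by
      intro h
      have : y = u := by rw [← hm.1.invol y, h, hu]
      exact hyu this
    have hmyv : m y ≠ v := by
      intro h
      have : y = v := by rw [← hm.1.invol y, h, hv]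
      exact hyv this
    obtain ⟨x, x0, x1, x2⟩ : ∃ x : ℕ → V, x 0 = u ∧ x 1 = y ∧ x 2 = v :=
      ⟨fun s => if s = 0 then u else if s = 1 then y else v, by simp, by simp, by simp⟩
    refine ⟨1, x, ⟨?_, ?_, ?_, ?_, ?_, ?_⟩, by omega⟩
    · rw [x0]; exact hu
    · rw [x2]; exact hv
    · intro s h1 h0
      have : s = 1 := by omega
      subst this
      rw [x1]
      exact hmy
    · intro s hs
      have e1 : s = 0 ∨ s = 1 := by omega
      rcases e1 with rfl | rfl
      · rw [x0, x1, hu]
        exact hy1
      · rw [x1, x2]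
        exact hy2
    · intro s s' hs hs' h
      have e1 : s = 0 ∨ s = 1 ∨ s = 2 := by omega
      have e2 : s' = 0 ∨ s' = 1 ∨ s' = 2 := by omega
      rcases e1 with rfl | rfl | rfl <;> rcases e2 with rfl | rfl | rfl <;>
        simp only [x0, x1, x2, hu, hv] at h <;>
        first
        | rfl
        | exact absurd h huv
        | exact absurd h.symm huv
        | exact absurd h hyu
        | exact absurd h.symm hyu
        | exact absurd h hyv
        | exact absurd h.symm hyv
    · intro s s' hs hs' h
      have e1 : s = 0 ∨ s = 1 ∨ s = 2 := by omega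
      have e2 : s' = 0 ∨ s' = 1 ∨ s' = 2 := by omega
      rcases e1 with rfl | rfl | rfl <;> rcases e2 with rfl | rfl | rfl <;>
        simp only [x0, x1, x2, hu, hv] at h <;>
        first
        | rfl
        | exact absurd h huv
        | exact absurd h.symm huv
        | exact absurd h hyu
        | exact absurd h.symm hyu
        | exact absurd h hyv
        | exact absurd h.symm hyv
        | exact absurd h hmyu
        | exact absurd h hmyv

end Vale.Agent.Lib.P308
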