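import Vale.Agent.Lib.P308.TreeL

/-!
# Joining the two trees

Once both frontiers have about `n / 2048` vertices, their neighbourhoods each cover more than
half of the unused vertices, so some unused vertex `x` is adjacent to the first frontier
while its partner is adjacent to the second.  The two root paths and the pair `x, m x` form an
augmenting sequence, all of whose steps except the two middle ones are opened by the labels.
-/

namespace Vale.Agent.Lib.P308

open Classical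

variable {V : Type*}

/-- the steps of the sequence `x` other than the two middle ones are opened by the labels:
the first `t` steps by the label at their even vertex, the last `t` steps by the label at
their odd end -/
def OpenPath (m : V → V) {q : ℕ} (blk : V → V → Fin q) (t : ℕ) (lab : ℕ → V → Fin q)
    (x : ℕ → V) : Prop :=
  (∀ s, s < t → lab s (m (x s)) = blk (m (x s)) (x (s + 1))) ∧
  (∀ s, t + 2 ≤ s → s ≤ 2 * t + 1 → lab s (x (s + 1)) = blk (x (s + 1)) (m (x s)))

section spectral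

variable [Fintype V] (G : SimpleGraph V) [DecidableRel G.Adj]

/-- Tanner-type lower bound for the neighbourhood of a set -/
theorem tanner {d : ℕ} (hreg : G.IsRegularOfDegree d) {lam : ℝ}
    (hspec : ∀ f : V → ℝ, ∑ x, f x = 0 →
      ∑ x, (∑ y ∈ G.neighborFinset x, f y) ^ 2 ≤ lam ^ 2 * ∑ x, f x ^ 2)
    (S : Finset V) (hN : 0 < Fintype.card V) :
    ((d : ℝ) * S.card) ^ 2 ≤
      ((Finset.univ.filter (fun x => ∃ y ∈ S, G.Adj y x)).card : ℝ) *
        (lam ^ 2 * S.card + (d : ℝ) ^ 2 * (S.card : ℝ) ^ 2 / Fintype.card V) := by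
  obtain ⟨Nb, hNb⟩ : ∃ Nb : Finset V, Nb = Finset.univ.filter (fun x => ∃ y ∈ S, G.Adj y x) :=
    ⟨_, rfl⟩
  rw [← hNb]
  obtain ⟨a, ha⟩ : ∃ a : V → ℝ, a = fun x => ∑ y ∈ G.neighborFinset x, ind S y := ⟨_, rfl⟩
  have h_supp : ∀ x, x ∉ Nb → a x = 0 := by
    intro x hx
    rw [ha]
    apply Finset.sum_eq_zero
    intro y hy
    have hxy : G.Adj x y := (G.mem_neighborFinset x y).mp hy
    have hyS : y ∉ S := by
      intro hyS
      apply hx
      rw [hNb, Finset.mem_filter]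
      exact ⟨Finset.mem_univ _, y, hyS, hxy.symm⟩
    simp only [ind, hyS, if_false]
  have h_total : ∑ x, a x = d * S.card := by
    rw [ha, sum_nbr_sum G hreg, sum_ind]
  have h_sumNb : ∑ x ∈ Nb, a x = d * S.card := by
    rw [← h_total]
    exact Finset.sum_subset (Finset.subset_univ Nb) (fun x _ hx => h_supp x hx)
  have hCS : (∑ x ∈ Nb, a x) ^ 2 ≤ Nb.card * ∑ x ∈ Nb, a x ^ 2 := sq_sum_le_card_mul_sum_sq
  have hle : ∑ x ∈ Nb, a x ^ 2 ≤ ∑ x, a x ^ 2 :=
    Finset.sum_le_univ_sum_of_nonneg (fun x => sq_nonneg _)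
  have hsq : ∑ x, a x ^ 2 ≤
      lam ^ 2 * S.card + (d : ℝ) ^ 2 * (S.card : ℝ) ^ 2 / Fintype.card V := by
    rw [ha]
    exact sum_tau_sq G hreg hspec S hN
  calc ((d : ℝ) * S.card) ^ 2 = (∑ x ∈ Nb, a x) ^ 2 := by rw [h_sumNb]
    _ ≤ Nb.card * ∑ x ∈ Nb, a x ^ 2 := hCS
    _ ≤ Nb.card * ∑ x, a x ^ 2 := mul_le_mul_of_nonneg_left hle (Nat.cast_nonneg _)
    _ ≤ Nb.card * (lam ^ 2 * S.card + (d : ℝ) ^ 2 * (S.card : ℝ) ^ 2 / Fintype.card V) :=
        mul_le_mul_of_nonneg_left hsq (Nat.cast_nonneg _)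

/-- **The middle pair.** -/
theorem exists_middle {d : ℕ} (hd : 1 ≤ d) (hreg : G.IsRegularOfDegree d) {lam : ℝ}
    (hlam : 0 ≤ lam)
    (hspec : ∀ f : V → ℝ, ∑ x, f x = 0 →
      ∑ x, (∑ y ∈ G.neighborFinset x, f y) ^ 2 ≤ lam ^ 2 * ∑ x, f x ^ 2)
    (hgap : 64 * lam ≤ d) {m : V → V} (hinv : ∀ z, m (m z) = z)
    (Su Sv W : Finset V) (a : ℕ) (hSu : Su.card = a) (hSv : Sv.card = a)
    (hWc : ∀ z ∈ W, m z ∈ W) (hW : W.card ≤ 8 * a)
    (hN1 : Fintype.card V < 2048 * a) (hN2 : 9 * a ≤ Fintype.card V) :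
    ∃ x, x ∉ W ∧ (∃ y ∈ Su, G.Adj y x) ∧ (∃ y' ∈ Sv, G.Adj (m x) y') := by
  by_contra hcon
  push Not at hcon
  have hminj : Function.Injective m := by
    intro z z' h
    have := congrArg m h
    rwa [hinv, hinv] at this
  have hcardpos : 0 < Fintype.card V := by omega
  have hapos : 0 < a := by omega
  obtain ⟨A, hA⟩ : ∃ A : Finset V,
      A = Finset.univ.filter (fun x => x ∉ W ∧ ∃ y ∈ Su, G.Adj y x) := ⟨_, rfl⟩
  obtain ⟨B, hB⟩ : ∃ B : Finset V,
      B = Finset.univ.filter (fun x => x ∉ W ∧ ∃ y ∈ Sv, G.Adj y x) := ⟨_, rfl⟩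
  obtain ⟨NA, hNA⟩ : ∃ NA : Finset V,
      NA = Finset.univ.filter (fun x => ∃ y ∈ Su, G.Adj y x) := ⟨_, rfl⟩
  obtain ⟨NB, hNB⟩ : ∃ NB : Finset V,
      NB = Finset.univ.filter (fun x => ∃ y ∈ Sv, G.Adj y x) := ⟨_, rfl⟩
  have hdisj : Disjoint A (B.image m) := by
    rw [Finset.disjoint_left]
    intro x hxA hxB
    rw [Finset.mem_image] at hxB
    obtain ⟨z, hz, rfl⟩ := hxB
    rw [hA, Finset.mem_filter] at hxA
    rw [hB, Finset.mem_filter] at hz
    obtain ⟨y', hy', hadj⟩ := hz.2.2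
    have := hcon (m z) hxA.2.1 hxA.2.2 y' hy'
    rw [hinv] at this
    exact this hadj.symm
  have hsub : A ∪ B.image m ⊆ Wᶜ := by
    intro x hx
    rw [Finset.mem_compl]
    rw [Finset.mem_union] at hx
    rcases hx with hx | hx
    · rw [hA, Finset.mem_filter] at hx
      exact hx.2.1
    · rw [Finset.mem_image] at hx
      obtain ⟨z, hz, rfl⟩ := hx
      rw [hB, Finset.mem_filter] at hz
      intro h
      have := hWc _ h
      rw [hinv] at this
      exact hz.2.1 this
  have hc1 : A.card + B.card ≤ Fintype.card V - W.card := by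
    have h1 := Finset.card_le_card hsub
    rw [Finset.card_union_of_disjoint hdisj, Finset.card_image_of_injective _ hminj,
      Finset.card_compl] at h1
    exact h1
  have hc2 : NA.card ≤ A.card + W.card := by
    have : NA ⊆ A ∪ W := by
      intro x hx
      rw [hNA, Finset.mem_filter] at hx
      rw [Finset.mem_union]
      by_cases hxW : x ∈ W
      · exact Or.inr hxW
      · left
        rw [hA, Finset.mem_filter]
        exact ⟨Finset.mem_univ _, hxW, hx.2⟩
    exact le_trans (Finset.card_le_card this) (Finset.card_union_le _ _)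
  have hc3 : NB.card ≤ B.card + W.card := by
    have : NB ⊆ B ∪ W := by
      intro x hx
      rw [hNB, Finset.mem_filter] at hx
      rw [Finset.mem_union]
      by_cases hxW : x ∈ W
      · exact Or.inr hxW
      · left
        rw [hB, Finset.mem_filter]
        exact ⟨Finset.mem_univ _, hxW, hx.2⟩
    exact le_trans (Finset.card_le_card this) (Finset.card_union_le _ _)
  have hWle : W.card ≤ Fintype.card V := Finset.card_le_univ W
  have hc4 : NA.card + NB.card ≤ Fintype.card V + 8 * a := by omega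
  have t1 := tanner G hreg hspec Su hcardpos
  have t2 := tanner G hreg hspec Sv hcardpos
  rw [← hNA, hSu] at t1
  rw [← hNB, hSv] at t2
  obtain ⟨N, hN⟩ : ∃ N : ℝ, N = Fintype.card V := ⟨_, rfl⟩
  rw [← hN] at t1 t2
  have hNpos : 0 < N := by
    rw [hN]
    exact_mod_cast hcardpos
  have har : (1 : ℝ) ≤ a := by exact_mod_cast hapos
  have hN1r : N < 2048 * a := by
    rw [hN]
    exact_mod_cast hN1
  have hN2r : 9 * (a : ℝ) ≤ N := by
    rw [hN]
    exact_mod_cast hN2
  have hdr : (1 : ℝ) ≤ d := by exact_mod_cast hd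
  have hc4r : (NA.card : ℝ) + NB.card ≤ N + 8 * a := by
    rw [hN]
    exact_mod_cast hc4
  obtain ⟨Q, hQ⟩ : ∃ Q : ℝ, Q = lam ^ 2 * a + (d : ℝ) ^ 2 * (a : ℝ) ^ 2 / N := ⟨_, rfl⟩
  rw [← hQ] at t1 t2
  have hQ0 : 0 ≤ Q := by
    rw [hQ]
    positivity
  have h1 : lam ^ 2 ≤ (d : ℝ) ^ 2 / 4096 := by
    have := pow_le_pow_left₀ (by positivity) hgap 2
    have e : (64 * lam) ^ 2 = 4096 * lam ^ 2 := by ring
    rw [e] at this
    linarith
  have hQle : Q ≤ (d : ℝ) ^ 2 * a * (N + 4096 * a) / (4096 * N) := by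
    rw [hQ]
    have e : (d : ℝ) ^ 2 * a * (N + 4096 * a) / (4096 * N) =
        (d : ℝ) ^ 2 / 4096 * a + (d : ℝ) ^ 2 * (a : ℝ) ^ 2 / N := by
      field_simp
    rw [e]
    have := mul_le_mul_of_nonneg_right h1 (by linarith : (0 : ℝ) ≤ a)
    linarith
  have hkey : (N + 8 * a) * (N + 4096 * a) < 8192 * a * N := by
    nlinarith [mul_nonneg (sub_nonneg.mpr hN2r) (sub_nonneg.mpr hN1r.le)]
  have hsum : 2 * ((d : ℝ) * a) ^ 2 ≤ (N + 8 * a) * Q := by
    calc 2 * ((d : ℝ) * a) ^ 2 ≤ (NA.card : ℝ) * Q + NB.card * Q := by linarith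
      _ = ((NA.card : ℝ) + NB.card) * Q := by ring
      _ ≤ (N + 8 * a) * Q := mul_le_mul_of_nonneg_right hc4r hQ0
  have hlt : (N + 8 * a) * Q < 2 * ((d : ℝ) * a) ^ 2 := by
    calc (N + 8 * a) * Q ≤ (N + 8 * a) * ((d : ℝ) ^ 2 * a * (N + 4096 * a) / (4096 * N)) :=
          mul_le_mul_of_nonneg_left hQle (by positivity)
      _ = (d : ℝ) ^ 2 * a * ((N + 8 * a) * (N + 4096 * a)) / (4096 * N) := by ring
      _ < (d : ℝ) ^ 2 * a * (8192 * a * N) / (4096 * N) := by
          apply div_lt_div_of_pos_right _ (by positivity)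
          apply mul_lt_mul_of_pos_left hkey
          positivity
      _ = 2 * ((d : ℝ) * a) ^ 2 := by
          field_simp
          ring
  linarith

end spectral

/-- **Joining two root paths through a middle pair.** -/
theorem join_paths {G : SimpleGraph V} {m : V → V} {q : ℕ} {blk : V → V → Fin q} {u v : V}
    {labU labV lab : ℕ → V → Fin q} {t : ℕ} {pu pv : ℕ → V} {Uu Uv : Finset V} {x : V}
    (hinv : ∀ z, m (m z) = z) (hu : m u = u) (hv : m v = v)
    (hpu : LPath G m blk u labU t pu) (hpv : LPath G m blk v labV t pv)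
    (hUu : ∀ s, s ≤ t → pu s ∈ Uu) (hUv : ∀ s, s ≤ t → pv s ∈ Uv)
    (hcu : ∀ z ∈ Uu, m z ∈ Uu) (hcv : ∀ z ∈ Uv, m z ∈ Uv) (hdisj : Disjoint Uu Uv)
    (hxu : x ∉ Uu) (hxv : x ∉ Uv) (hmx : m x ≠ x)
    (hadj1 : G.Adj (m (pu t)) x) (hadj2 : G.Adj (m x) (m (pv t)))
    (hlabU : ∀ s, s < t → lab s = labU s)
    (hlabV : ∀ s, s < t → lab (2 * t + 1 - s) = labV s) :
    ∃ X : ℕ → V, Aug G m (2 * t + 1) X ∧ OpenPath m blk t lab X := by
  have hminj : Function.Injective m := by
    intro z z' h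
    have := congrArg m h
    rwa [hinv, hinv] at this
  have hd : ∀ z, z ∈ Uu → z ∉ Uv := fun z h1 h2 => (Finset.disjoint_left.mp hdisj) h1 h2
  have hmxu : m x ∉ Uu := by
    intro h
    have := hcu _ h
    rw [hinv] at this
    exact hxu this
  have hmxv : m x ∉ Uv := by
    intro h
    have := hcv _ h
    rw [hinv] at this
    exact hxv this
  obtain ⟨X, Xu, Xm, Xv⟩ : ∃ X : ℕ → V, (∀ s, s ≤ t → X s = pu s) ∧ X (t + 1) = x ∧
      (∀ j, j ≤ t → X (2 * t + 2 - j) = m (pv j)) := by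
    refine ⟨fun s => if s ≤ t then pu s else if s = t + 1 then x else m (pv (2 * t + 2 - s)),
      ?_, ?_, ?_⟩
    · intro s hs
      simp only [hs, if_true]
    · have c1 : ¬ (t + 1 ≤ t) := by omega
      simp only [c1, if_false, if_true]
    · intro j hj
      have c1 : ¬ (2 * t + 2 - j ≤ t) := by omega
      have c2 : ¬ (2 * t + 2 - j = t + 1) := by omega
      have c3 : 2 * t + 2 - (2 * t + 2 - j) = j := by omega
      simp only [c1, c2, if_false, c3]
  -- every index is in one of three regions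
  have hreg : ∀ s, s ≤ 2 * t + 2 → s ≤ t ∨ s = t + 1 ∨ ∃ j, j ≤ t ∧ s = 2 * t + 2 - j := by
    intro s hs
    rcases Nat.lt_or_ge t s with c | c
    · rcases Nat.lt_or_ge (t + 1) s with c' | c'
      · exact Or.inr (Or.inr ⟨2 * t + 2 - s, by omega, by omega⟩)
      · exact Or.inr (Or.inl (by omega))
    · exact Or.inl c
  have hA : ∀ s, s ≤ t → X s ∈ Uu ∧ m (X s) ∈ Uu := by
    intro s hs
    rw [Xu s hs]
    exact ⟨hUu s hs, hcu _ (hUu s hs)⟩
  have hC : ∀ j, j ≤ t → X (2 * t + 2 - j) ∈ Uv ∧ m (X (2 * t + 2 - j)) ∈ Uv := by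
    intro j hj
    rw [Xv j hj, hinv]
    exact ⟨hcv _ (hUv j hj), hUv j hj⟩
  refine ⟨X, ⟨?_, ?_, ?_, ?_, ?_, ?_⟩, ?_, ?_⟩
  · rw [Xu 0 (Nat.zero_le _), hpu.start, hu]
  · have e : 2 * t + 1 + 1 = 2 * t + 2 - 0 := by omega
    rw [e, Xv 0 (Nat.zero_le _), hpv.start, hv, hv]
  · intro s h1 h2
    rcases hreg s (by omega) with c | c | ⟨j, hj, rfl⟩
    · rw [Xu s c]
      exact hpu.nfix s h1 c
    · rw [c, Xm]
      exact hmx
    · rw [Xv j hj, hinv]
      exact fun h => hpv.nfix j (by omega) hj h.symm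
  · intro s hs
    rcases hreg s (by omega) with c | c | ⟨j, hj, rfl⟩
    · rcases Nat.lt_or_ge s t with c' | c'
      · rw [Xu s c, Xu (s + 1) (by omega)]
        exact hpu.adj s c'
      · have e : s = t := by omega
        subst e
        rw [Xu s le_rfl, Xm]
        exact hadj1
    · subst c
      have e : t + 1 + 1 = 2 * t + 2 - t := by omega
      rw [Xm, e, Xv t le_rfl]
      exact hadj2
    · have hj1 : 1 ≤ j := by omega
      have e : 2 * t + 2 - j + 1 = 2 * t + 2 - (j - 1) := by omega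
      rw [Xv j hj, e, Xv (j - 1) (by omega), hinv]
      have := hpu.adj
      have h2 := hpv.adj (j - 1) (by omega)
      have e2 : j - 1 + 1 = j := by omega
      rw [e2] at h2
      exact h2.symm
  · intro s s' hs hs' hh
    rcases hreg s (by omega) with c | c | ⟨j, hj, rfl⟩ <;>
      rcases hreg s' (by omega) with c' | c' | ⟨j', hj', rfl⟩
    · rw [Xu s c, Xu s' c'] at hh
      exact hpu.inj s s' c c' hh
    · subst c'
      exact absurd (hh ▸ (hA s c).1) (by rw [Xm]; exact hxu)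
    · exact absurd (hh ▸ (hC j' hj').1) (hd _ (hA s c).1)
    · subst c
      exact absurd (hh ▸ (hA s' c').1) (by rw [Xm]; exact hxu)
    · omega
    · subst c
      exact absurd (hh ▸ (hC j' hj').1) (by rw [Xm]; exact hxv)
    · exact absurd (hh ▸ (hC j hj).1) (hd _ (hA s' c').1)
    · subst c'
      exact absurd (hh ▸ (hC j hj).1) (by rw [Xm]; exact hxv)
    · rw [Xv j hj, Xv j' hj'] at hh
      have := hpv.inj j j' hj hj' (hminj hh)
      omega
  · intro s s' hs hs' hh
    rcases hreg s (by omega) with c | c | ⟨j, hj, rfl⟩ <;>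
      rcases hreg s' (by omega) with c' | c' | ⟨j', hj', rfl⟩
    · rw [Xu s c, Xu s' c'] at hh
      exact hpu.nopair s s' c c' hh
    · subst c'
      exact absurd (hh ▸ (hA s c).2) (by rw [Xm]; exact hxu)
    · exact absurd (hh ▸ (hC j' hj').1) (hd _ (hA s c).2)
    · subst c
      rw [Xm] at hh
      exact absurd (hh ▸ (hA s' c').1) hmxu
    · omega
    · subst c
      rw [Xm] at hh
      exact absurd (hh ▸ (hC j' hj').1) hmxv
    · exact absurd (hh ▸ (hC j hj).2) (hd _ (hA s' c').1)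
    · subst c'
      exact absurd (hh ▸ (hC j hj).2) (by rw [Xm]; exact hxv)
    · rw [Xv j hj, Xv j' hj', hinv] at hh
      have := hpv.nopair j' j hj' hj hh.symm
      omega
  · intro s hs
    rw [Xu s (by omega), Xu (s + 1) (by omega), hlabU s hs]
    exact hpu.opn s hs
  · intro s hs1 hs2
    obtain ⟨j, hj, hj1, rfl⟩ : ∃ j, j ≤ t ∧ 1 ≤ j ∧ s = 2 * t + 2 - j :=
      ⟨2 * t + 2 - s, by omega, by omega, by omega⟩
    have e : 2 * t + 2 - j + 1 = 2 * t + 2 - (j - 1) := by omega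
    rw [e, Xv (j - 1) (by omega), Xv j hj, hinv]
    have h2 := hpv.opn (j - 1) (by omega)
    have e2 : j - 1 + 1 = j := by omega
    rw [e2] at h2
    have e3 : 2 * t + 2 - j = 2 * t + 1 - (j - 1) := by omega
    rw [e3, hlabV (j - 1) (by omega)]
    exact h2

end Vale.Agent.Lib.P308
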