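import Mathlib

/-!
# Partner maps, augmenting sequences and the counting lemma

A matching of a graph `G` on `V` is encoded by its partner map `m : V → V`
(an involution, fixing exactly the uncovered vertices, moving every covered vertex to a neighbour).
-/

namespace Vale.Agent.Lib.P308

open Classical

variable {V : Type*}

/-- `m` is the partner map of a matching of `G`. -/
structure IsPartner (G : SimpleGraph V) (m : V → V) : Prop where
  invol : ∀ x, m (m x) = x
  adj : ∀ x, m x ≠ x → G.Adj x (m x)

theorem IsPartner.inj {G : SimpleGraph V} {m : V → V} (hm : IsPartner G m) {a b : V}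
    (h : m a = m b) : a = b := by
  have := congrArg m h
  rwa [hm.invol, hm.invol] at this

/-- An augmenting sequence `x 0, ..., x (k+1)` for the partner map `m`:
the alternating path is `x 0, x 1, m (x 1), x 2, m (x 2), ..., x k, m (x k), x (k+1)`. -/
structure Aug (G : SimpleGraph V) (m : V → V) (k : ℕ) (x : ℕ → V) : Prop where
  fix0 : m (x 0) = x 0
  fixL : m (x (k + 1)) = x (k + 1)
  nfix : ∀ s, 1 ≤ s → s ≤ k → m (x s) ≠ x s
  adj : ∀ s, s ≤ k → G.Adj (m (x s)) (x (s + 1))
  inj : ∀ s s', s ≤ k + 1 → s' ≤ k + 1 → x s = x s' → s = s'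
  nopair : ∀ s s', s ≤ k + 1 → s' ≤ k + 1 → m (x s) = x s' → s = s'

section existence

variable {G : SimpleGraph V} {m f : V → V}

/-- the sequence of even vertices obtained by alternately following `f` and `m` -/
def evenSeq (m f : V → V) (u : V) : ℕ → V
  | 0 => u
  | (i + 1) => m (f (evenSeq m f u i))

theorem exists_aug [Finite V] (hm : IsPartner G m) (hf : IsPartner G f) (hfp : ∀ x, f x ≠ x)
    {u : V} (hu : m u = u) : ∃ k x, Aug G m k x := by
  set q := evenSeq m f u with hq
  have q0 : q 0 = u := rfl
  have qs : ∀ i, q (i + 1) = m (f (q i)) := fun i => rfl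
  -- there is an index where `f (q i)` is a fixed point of `m`
  have hex : ∃ i, m (f (q i)) = f (q i) := by
    by_contra hne
    push Not at hne
    have hinj : Function.Injective q := by
      have key : ∀ i j, i < j → q i ≠ q j := by
        intro i
        induction i with
        | zero =>
          intro j hj h
          obtain ⟨j', rfl⟩ : ∃ j', j = j' + 1 := ⟨j - 1, by omega⟩
          rw [q0, qs] at h
          have h2 : f (q j') = u := by
            have := congrArg m h
            rw [hm.invol, hu] at this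
            exact this.symm
          apply hne j'
          rw [h2, hu]
        | succ i ih =>
          intro j hj h
          obtain ⟨j', rfl⟩ : ∃ j', j = j' + 1 := ⟨j - 1, by omega⟩
          rw [qs, qs] at h
          exact ih j' (by omega) (hf.inj (hm.inj h))
      intro i j h
      by_contra hij
      rcases Nat.lt_or_gt_of_ne hij with h' | h'
      · exact key i j h' h
      · exact key j i h' h.symm
    exact not_injective_infinite_finite q hinj
  set k := Nat.find hex with hk
  have hkfix : m (f (q k)) = f (q k) := Nat.find_spec hex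
  have hmin : ∀ i, i < k → m (f (q i)) ≠ f (q i) := fun i hi => Nat.find_min hex hi
  -- injectivity of q on [0,k]
  have qinj : ∀ i j, i < j → j ≤ k → q i ≠ q j := by
    intro i
    induction i with
    | zero =>
      intro j hj hjk h
      obtain ⟨j', rfl⟩ : ∃ j', j = j' + 1 := ⟨j - 1, by omega⟩
      rw [q0, qs] at h
      have h2 : f (q j') = u := by
        have := congrArg m h
        rw [hm.invol, hu] at this
        exact this.symm
      apply hmin j' (by omega)
      rw [h2, hu]
    | succ i ih =>
      intro j hj hjk h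
      obtain ⟨j', rfl⟩ : ∃ j', j = j' + 1 := ⟨j - 1, by omega⟩
      rw [qs, qs] at h
      exact ih j' (by omega) (by omega) (hf.inj (hm.inj h))
  -- even-odd non-collision
  have eo : ∀ d, ∀ i j, i = j + d → i ≤ k → q i ≠ f (q j) := by
    intro d
    induction d using Nat.strong_induction_on with
    | _ d ih =>
      intro i j hij hik h
      rcases Nat.lt_or_ge d 2 with hd | hd
      · interval_cases d
        · have : i = j := by omega
          subst this
          exact hfp (q i) h.symm
        · have : i = j + 1 := by omega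
          subst this
          rw [qs] at h
          exact hmin j (by omega) h
      · obtain ⟨i', rfl⟩ : ∃ i', i = i' + 1 := ⟨i - 1, by omega⟩
        rw [qs] at h
        have h2 : f (q i') = q (j + 1) := by
          have := congrArg m h
          rw [hm.invol] at this
          rw [qs]
          exact this
        have h3 : q i' = f (q (j + 1)) := by
          have := congrArg f h2
          rw [hf.invol] at this
          exact this
        exact ih (d - 2) (by omega) i' (j + 1) (by omega) (by omega) h3
  have eo' : ∀ i j, i ≤ k → j ≤ k → q i ≠ f (q j) := by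
    intro i j hi hj h
    rcases Nat.le_total j i with hji | hij
    · exact eo (i - j) i j (by omega) hi h
    · have h3 : q j = f (q i) := by
        have := congrArg f h
        rw [hf.invol] at this
        exact this.symm
      exact eo (j - i) j i (by omega) hj h3
  -- the sequence of odd vertices
  let x : ℕ → V := fun s => match s with
    | 0 => u
    | (s + 1) => f (q s)
  have x0 : x 0 = u := rfl
  have xs : ∀ s, x (s + 1) = f (q s) := fun s => rfl
  have mx : ∀ s, s ≤ k → m (x s) = q s := by
    intro s hs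
    cases s with
    | zero => rw [x0, hu, q0]
    | succ s => rw [xs, qs]
  have xinj : ∀ s s', s ≤ k + 1 → s' ≤ k + 1 → x s = x s' → s = s' := by
    intro s s' hs hs' h
    cases s with
    | zero =>
      cases s' with
      | zero => rfl
      | succ s' =>
        exfalso
        rw [x0, xs] at h
        exact eo' 0 s' (by omega) (by omega) (by rw [q0]; exact h)
    | succ s =>
      cases s' with
      | zero =>
        exfalso
        rw [x0, xs] at h
        exact eo' 0 s (by omega) (by omega) (by rw [q0]; exact h.symm)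
      | succ s' =>
        rw [xs, xs] at h
        have h2 : q s = q s' := hf.inj h
        by_contra hne
        rcases Nat.lt_or_gt_of_ne (show s ≠ s' by omega) with h' | h'
        · exact qinj s s' h' (by omega) h2
        · exact qinj s' s h' (by omega) h2.symm
  refine ⟨k, x, ?_, ?_, ?_, ?_, xinj, ?_⟩
  · rw [x0, hu]
  · rw [xs]; exact hkfix
  · intro s hs1 hsk
    obtain ⟨s', rfl⟩ : ∃ s', s = s' + 1 := ⟨s - 1, by omega⟩
    rw [xs]
    exact hmin s' (by omega)
  · intro s hs
    rw [mx s hs, xs]
    exact hf.adj (q s) (hfp (q s))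
  · intro s s' hs hs' h
    rcases Nat.lt_or_ge s (k + 1) with hlt | hge
    · rw [mx s (by omega)] at h
      cases s' with
      | zero =>
        rw [x0] at h
        by_contra hne
        exact qinj 0 s (by omega) (by omega) (by rw [q0]; exact h.symm)
      | succ s' =>
        exfalso
        rw [xs] at h
        exact eo' s s' (by omega) (by omega) h
    · have hs1 : s = k + 1 := by omega
      subst hs1
      rw [xs, hkfix, ← xs] at h
      exact xinj _ _ hs hs' h

end existence

section shortcut

variable {G : SimpleGraph V} {m : V → V}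

theorem Aug.shortcut (hm : IsPartner G m) {k : ℕ} {x : ℕ → V} (h : Aug G m k x)
    {i j b : ℕ} (hij : i + 2 ≤ j) (hjk : j ≤ k) (hjb : j < b) (hbk : b ≤ k + 1)
    (h1 : G.Adj (m (x i)) (m (x j))) (h2 : G.Adj (x j) (x b)) :
    ∃ k' x', k' < k ∧ Aug G m k' x' := by
  obtain ⟨x', lo, mid, hi⟩ : ∃ x' : ℕ → V, (∀ s, s ≤ i → x' s = x s) ∧ (x' (i + 1) = m (x j)) ∧
      (∀ s, i + 2 ≤ s → x' s = x (s + b - (i + 2))) := by
    refine ⟨fun s => if s ≤ i then x s else if s = i + 1 then m (x j) else x (s + b - (i + 2)),
      ?_, ?_, ?_⟩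
    · intro s hs
      simp only [hs, if_true]
    · have e1 : ¬ (i + 1 ≤ i) := by omega
      simp only [e1, if_false, if_true]
    · intro s hs
      have e1 : ¬ (s ≤ i) := by omega
      have e2 : ¬ (s = i + 1) := by omega
      simp only [e1, e2, if_false]
  have tri : ∀ s : ℕ, s ≤ i ∨ s = i + 1 ∨ i + 2 ≤ s := by intro s; omega
  refine ⟨k + i + 2 - b, x', by omega, ?_, ?_, ?_, ?_, ?_, ?_⟩
  · rw [lo 0 (by omega)]
    exact h.fix0
  · rw [hi _ (by omega)]
    have e3 : k + i + 2 - b + 1 + b - (i + 2) = k + 1 := by omega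
    rw [e3]
    exact h.fixL
  · intro s hs1 hsk
    rcases tri s with c | c | c
    · rw [lo s c]
      exact h.nfix s hs1 (by omega)
    · subst c
      rw [mid, hm.invol]
      exact fun hh => h.nfix j (by omega) hjk hh.symm
    · rw [hi s c]
      exact h.nfix _ (by omega) (by omega)
  · intro s hs
    rcases tri s with c | c | c
    · rcases Nat.lt_or_ge s i with c' | c'
      · rw [lo s c, lo (s + 1) (by omega)]
        exact h.adj s (by omega)
      · have : s = i := by omega
        subst this
        rw [lo s c, mid]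
        exact h1
    · subst c
      rw [mid, hm.invol, hi _ (by omega)]
      have e4 : i + 1 + 1 + b - (i + 2) = b := by omega
      rw [e4]
      exact h2
    · rw [hi s c, hi (s + 1) (by omega)]
      have e3 : s + 1 + b - (i + 2) = (s + b - (i + 2)) + 1 := by omega
      rw [e3]
      exact h.adj _ (by omega)
  · intro s s' hs hs' hx
    rcases tri s with c | c | c <;> rcases tri s' with d | d | d
    · rw [lo s c, lo s' d] at hx
      exact h.inj s s' (by omega) (by omega) hx
    · subst d
      rw [lo s c, mid] at hx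
      have := h.nopair j s (by omega) (by omega) hx.symm
      omega
    · rw [lo s c, hi s' d] at hx
      have := h.inj _ _ (by omega) (by omega) hx
      omega
    · subst c
      rw [lo s' d, mid] at hx
      have := h.nopair j s' (by omega) (by omega) hx
      omega
    · omega
    · subst c
      rw [mid, hi s' d] at hx
      have := h.nopair j _ (by omega) (by omega) hx
      omega
    · rw [hi s c, lo s' d] at hx
      have := h.inj _ _ (by omega) (by omega) hx
      omega
    · subst d
      rw [hi s c, mid] at hx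
      have := h.nopair j _ (by omega) (by omega) hx.symm
      omega
    · rw [hi s c, hi s' d] at hx
      have := h.inj _ _ (by omega) (by omega) hx
      omega
  · intro s s' hs hs' hx
    rcases tri s with c | c | c <;> rcases tri s' with d | d | d
    · rw [lo s c, lo s' d] at hx
      exact h.nopair s s' (by omega) (by omega) hx
    · subst d
      rw [lo s c, mid] at hx
      have := h.inj _ _ (by omega) (by omega) (hm.inj hx)
      omega
    · rw [lo s c, hi s' d] at hx
      have := h.nopair _ _ (by omega) (by omega) hx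
      omega
    · subst c
      rw [lo s' d, mid, hm.invol] at hx
      have := h.inj _ _ (by omega) (by omega) hx
      omega
    · omega
    · subst c
      rw [mid, hi s' d, hm.invol] at hx
      have := h.inj _ _ (by omega) (by omega) hx
      omega
    · rw [hi s c, lo s' d] at hx
      have := h.nopair _ _ (by omega) (by omega) hx
      omega
    · subst d
      rw [hi s c, mid] at hx
      have := h.inj _ _ (by omega) (by omega) (hm.inj hx)
      omega
    · rw [hi s c, hi s' d] at hx
      have := h.nopair _ _ (by omega) (by omega) hx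
      omega

end shortcut

section bound

variable {G : SimpleGraph V} {m : V → V}

/-- A shortest augmenting sequence in a graph without independent sets of more than `t`
vertices has at most `3 * t` entries. -/
theorem Aug.bound_of_indep (hm : IsPartner G m) {k : ℕ} {x : ℕ → V} (h : Aug G m k x)
    (hmin : ∀ k' x', k' < k → ¬ Aug G m k' x') {t : ℕ}
    (hα : ∀ S : Finset V, G.IsIndepSet (S : Set V) → S.card ≤ t) : k + 2 ≤ 3 * t := by
  have key : ∀ i j b, i + 2 ≤ j → j ≤ k → j < b → b ≤ k + 1 →
      G.Adj (m (x i)) (m (x j)) → ¬ G.Adj (x j) (x b) := by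
    intro i j b hij hjk hjb hbk h1 h2
    obtain ⟨k', x', hlt, haug⟩ := h.shortcut hm hij hjk hjb hbk h1 h2
    exact hmin k' x' hlt haug
  let P : ℕ → Prop := fun j => ∃ i, i + 2 ≤ j ∧ G.Adj (m (x i)) (m (x j))
  let B : Finset ℕ := (Finset.range (k + 1)).filter P
  let NB : Finset ℕ := (Finset.range (k + 1)).filter (fun j => ¬ P j)
  have hBNB : B.card + NB.card = k + 1 := by
    have := Finset.card_filter_add_card_filter_not (s := Finset.range (k + 1)) P
    rw [Finset.card_range] at this
    exact this
  have hBmem : ∀ j, j ∈ B → j ≤ k ∧ P j := by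
    intro j hj
    have := Finset.mem_filter.mp hj
    exact ⟨by have := Finset.mem_range.mp this.1; omega, this.2⟩
  have hNBmem : ∀ j, j ∈ NB → j ≤ k ∧ ¬ P j := by
    intro j hj
    have := Finset.mem_filter.mp hj
    exact ⟨by have := Finset.mem_range.mp this.1; omega, this.2⟩
  -- first independent set: odd vertices with a backward even chord, and the last vertex
  let S1 : Finset V := (insert (k + 1) B).image x
  have hins : ∀ j, j ∈ insert (k + 1) B → j ≤ k + 1 := by
    intro j hj
    rcases Finset.mem_insert.mp hj with h' | h'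
    · omega
    · have := (hBmem j h').1; omega
  have hS1 : G.IsIndepSet (S1 : Set V) := by
    rw [SimpleGraph.isIndepSet_iff]
    intro a ha b hb hab
    obtain ⟨j, hj, rfl⟩ := Finset.mem_image.mp (Finset.mem_coe.mp ha)
    obtain ⟨j', hj', rfl⟩ := Finset.mem_image.mp (Finset.mem_coe.mp hb)
    have hjle := hins j hj
    have hj'le := hins j' hj'
    rcases Nat.lt_trichotomy j j' with hlt | heq | hgt
    · have hjB : j ∈ B := by
        rcases Finset.mem_insert.mp hj with h' | h'
        · omega
        · exact h'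
      obtain ⟨hjk, i, hi, hadj⟩ := hBmem j hjB
      exact key i j j' hi hjk hlt hj'le hadj
    · exact absurd (by rw [heq]) hab
    · have hjB : j' ∈ B := by
        rcases Finset.mem_insert.mp hj' with h' | h'
        · omega
        · exact h'
      obtain ⟨hjk, i, hi, hadj⟩ := hBmem j' hjB
      exact fun hh => key i j' j hi hjk hgt hjle hadj hh.symm
  have cS1 : S1.card = B.card + 1 := by
    have hnot : (k + 1) ∉ B := fun hh => by have := (hBmem _ hh).1; omega
    rw [Finset.card_image_of_injOn, Finset.card_insert_of_notMem hnot]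
    intro a ha b hb hab
    exact h.inj a b (hins a (Finset.mem_coe.mp ha)) (hins b (Finset.mem_coe.mp hb)) hab
  -- second and third independent sets: even vertices without backward chords, by parity of index
  have indep_par : ∀ T : Finset ℕ, (∀ j ∈ T, j ∈ NB) →
      (∀ j ∈ T, ∀ j' ∈ T, j < j' → j + 2 ≤ j') →
      G.IsIndepSet ((T.image (fun j => m (x j)) : Finset V) : Set V) ∧
        (T.image (fun j => m (x j))).card = T.card := by
    intro T hT hpar
    constructor
    · rw [SimpleGraph.isIndepSet_iff]
      intro a ha b hb hab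
      obtain ⟨j, hj, rfl⟩ := Finset.mem_image.mp (Finset.mem_coe.mp ha)
      obtain ⟨j', hj', rfl⟩ := Finset.mem_image.mp (Finset.mem_coe.mp hb)
      rcases Nat.lt_trichotomy j j' with hlt | heq | hgt
      · have h2 := hpar j hj j' hj' hlt
        have hnp := (hNBmem j' (hT j' hj')).2
        exact fun hadj => hnp ⟨j, h2, hadj⟩
      · exact absurd (by rw [heq]) hab
      · have h2 := hpar j' hj' j hj hgt
        have hnp := (hNBmem j (hT j hj)).2
        exact fun hadj => hnp ⟨j', h2, hadj.symm⟩
    · rw [Finset.card_image_of_injOn]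
      intro a ha b hb hab
      have ha' := (hNBmem a (hT a (Finset.mem_coe.mp ha))).1
      have hb' := (hNBmem b (hT b (Finset.mem_coe.mp hb))).1
      exact h.inj a b (by omega) (by omega) (hm.inj hab)
  obtain ⟨hS2, cS2⟩ := indep_par (NB.filter (fun j => Even j))
    (fun j hj => (Finset.mem_filter.mp hj).1)
    (fun j hj j' hj' hlt => by
      have e1 := (Finset.mem_filter.mp hj).2
      have e2 := (Finset.mem_filter.mp hj').2
      rcases e1 with ⟨a, ha⟩
      rcases e2 with ⟨b, hb⟩
      omega)
  obtain ⟨hS3, cS3⟩ := indep_par (NB.filter (fun j => ¬ Even j))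
    (fun j hj => (Finset.mem_filter.mp hj).1)
    (fun j hj j' hj' hlt => by
      have e1 := (Finset.mem_filter.mp hj).2
      have e2 := (Finset.mem_filter.mp hj').2
      rw [Nat.not_even_iff_odd] at e1 e2
      rcases e1 with ⟨a, ha⟩
      rcases e2 with ⟨b, hb⟩
      omega)
  have hsplit := Finset.card_filter_add_card_filter_not (s := NB) (fun j => Even j)
  have b1 := hα _ hS1
  have b2 := hα _ hS2
  have b3 := hα _ hS3
  omega

end bound

section switch

variable {G : SimpleGraph V} {m : V → V}

/-- Switching a matching along an augmenting sequence. -/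
noncomputable def switch (m : V → V) (k : ℕ) (x : ℕ → V) (y : V) : V :=
  if h : ∃ s, s ≤ k ∧ y = x (s + 1) then m (x h.choose)
  else if h' : ∃ s, s ≤ k ∧ y = m (x s) then x (h'.choose + 1)
  else m y

theorem switch_odd {k : ℕ} {x : ℕ → V} (h : Aug G m k x) {s : ℕ} (hs : s ≤ k) :
    switch m k x (x (s + 1)) = m (x s) := by
  have hex : ∃ s', s' ≤ k ∧ x (s + 1) = x (s' + 1) := ⟨s, hs, rfl⟩
  rw [switch, dif_pos hex]
  obtain ⟨c1, c2⟩ := hex.choose_spec
  have := h.inj _ _ (by omega) (by omega) c2
  have e : hex.choose = s := by omega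
  rw [e]

theorem Aug.even_ne_odd {k : ℕ} {x : ℕ → V} (h : Aug G m k x) {s s' : ℕ} (hs : s ≤ k)
    (hs' : s' ≤ k) : m (x s) ≠ x (s' + 1) := by
  intro hh
  have e := h.nopair s (s' + 1) (by omega) (by omega) hh
  subst e
  exact h.nfix (s' + 1) (by omega) hs hh

theorem switch_even (hm : IsPartner G m) {k : ℕ} {x : ℕ → V} (h : Aug G m k x) {s : ℕ}
    (hs : s ≤ k) : switch m k x (m (x s)) = x (s + 1) := by
  have hnex : ¬ ∃ s', s' ≤ k ∧ m (x s) = x (s' + 1) := by
    rintro ⟨s', hs', hh⟩
    exact h.even_ne_odd hs hs' hh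
  have hex : ∃ s', s' ≤ k ∧ m (x s) = m (x s') := ⟨s, hs, rfl⟩
  rw [switch, dif_neg hnex, dif_pos hex]
  obtain ⟨c1, c2⟩ := hex.choose_spec
  have := h.inj _ _ (by omega) (by omega) (hm.inj c2)
  rw [← this]

theorem switch_off {k : ℕ} {x : ℕ → V} {y : V} (h1 : ∀ s, s ≤ k → y ≠ x (s + 1))
    (h2 : ∀ s, s ≤ k → y ≠ m (x s)) : switch m k x y = m y := by
  have hnex : ¬ ∃ s', s' ≤ k ∧ y = x (s' + 1) := by
    rintro ⟨s', hs', hh⟩
    exact h1 s' hs' hh
  have hnex' : ¬ ∃ s', s' ≤ k ∧ y = m (x s') := by
    rintro ⟨s', hs', hh⟩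
    exact h2 s' hs' hh
  rw [switch, dif_neg hnex, dif_neg hnex']

theorem switch_isPartner (hm : IsPartner G m) {k : ℕ} {x : ℕ → V} (h : Aug G m k x)
    (hfix : ∀ y, m y = y → y = x 0 ∨ y = x (k + 1)) :
    IsPartner G (switch m k x) ∧ ∀ y, switch m k x y ≠ y := by
  have cases3 : ∀ y, (∃ s, s ≤ k ∧ y = x (s + 1)) ∨ (∃ s, s ≤ k ∧ y = m (x s)) ∨
      ((∀ s, s ≤ k → y ≠ x (s + 1)) ∧ (∀ s, s ≤ k → y ≠ m (x s))) := by
    intro y
    by_cases c1 : ∃ s, s ≤ k ∧ y = x (s + 1)
    · exact Or.inl c1
    · by_cases c2 : ∃ s, s ≤ k ∧ y = m (x s)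
      · exact Or.inr (Or.inl c2)
      · refine Or.inr (Or.inr ⟨fun s hs hh => c1 ⟨s, hs, hh⟩, fun s hs hh => c2 ⟨s, hs, hh⟩⟩)
  have offne : ∀ y, (∀ s, s ≤ k → y ≠ x (s + 1)) → (∀ s, s ≤ k → y ≠ m (x s)) → m y ≠ y := by
    intro y h1 h2 hh
    rcases hfix y hh with e | e
    · exact h2 0 (by omega) (by rw [h.fix0]; exact e)
    · exact h1 k (by omega) e
  refine ⟨⟨?_, ?_⟩, ?_⟩
  · intro y
    rcases cases3 y with ⟨s, hs, rfl⟩ | ⟨s, hs, rfl⟩ | ⟨h1, h2⟩
    · rw [switch_odd h hs, switch_even hm h hs]
    · rw [switch_even hm h hs, switch_odd h hs]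
    · rw [switch_off h1 h2]
      have h1' : ∀ s, s ≤ k → m y ≠ x (s + 1) := by
        intro s hs hh
        have e : y = m (x (s + 1)) := by rw [← hh, hm.invol]
        rcases Nat.lt_or_ge s k with c | c
        · exact h2 (s + 1) (by omega) e
        · have : s = k := by omega
          subst this
          rw [h.fixL] at e
          exact h1 s hs e
      have h2' : ∀ s, s ≤ k → m y ≠ m (x s) := by
        intro s hs hh
        have e : y = x s := hm.inj hh
        cases s with
        | zero => exact h2 0 (by omega) (by rw [h.fix0]; exact e)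
        | succ s => exact h1 s (by omega) e
      rw [switch_off h1' h2', hm.invol]
  · intro y _
    rcases cases3 y with ⟨s, hs, rfl⟩ | ⟨s, hs, rfl⟩ | ⟨h1, h2⟩
    · rw [switch_odd h hs]
      exact (h.adj s hs).symm
    · rw [switch_even hm h hs]
      exact h.adj s hs
    · rw [switch_off h1 h2]
      exact hm.adj y (offne y h1 h2)
  · intro y
    rcases cases3 y with ⟨s, hs, rfl⟩ | ⟨s, hs, rfl⟩ | ⟨h1, h2⟩
    · rw [switch_odd h hs]
      exact h.even_ne_odd hs hs
    · rw [switch_even hm h hs]
      exact fun hh => h.even_ne_odd hs hs hh.symm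
    · rw [switch_off h1 h2]
      exact offne y h1 h2

/-- The switched matching together with the even vertices of the sequence determines the
original matching. -/
theorem switch_determines {m₁ m₂ : V → V} (hm₁ : IsPartner G m₁) (hm₂ : IsPartner G m₂)
    {k₁ k₂ : ℕ} {x₁ x₂ : ℕ → V} (h₁ : Aug G m₁ k₁ x₁) (h₂ : Aug G m₂ k₂ x₂)
    {L : ℕ} (hL₁ : k₁ + 1 ≤ L) (hL₂ : k₂ + 1 ≤ L)
    (hsw : switch m₁ k₁ x₁ = switch m₂ k₂ x₂)
    (hcode : ∀ s, s < L →
      m₁ (x₁ (if s ≤ k₁ then s else 0)) = m₂ (x₂ (if s ≤ k₂ then s else 0))) :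
    m₁ = m₂ := by
  have hx0 : x₁ 0 = x₂ 0 := by
    have := hcode 0 (by omega)
    simp only [Nat.zero_le, if_true] at this
    rw [h₁.fix0, h₂.fix0] at this
    exact this
  have hk : k₁ = k₂ := by
    rcases Nat.lt_trichotomy k₁ k₂ with c | c | c
    · exfalso
      have := hcode (k₁ + 1) (by omega)
      have e1 : ¬ (k₁ + 1 ≤ k₁) := by omega
      have e2 : k₁ + 1 ≤ k₂ := by omega
      simp only [e1, e2, if_true, if_false] at this
      rw [h₁.fix0, hx0] at this
      have := h₂.nopair (k₁ + 1) 0 (by omega) (by omega) this.symm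
      omega
    · exact c
    · exfalso
      have := hcode (k₂ + 1) (by omega)
      have e1 : ¬ (k₂ + 1 ≤ k₂) := by omega
      have e2 : k₂ + 1 ≤ k₁ := by omega
      simp only [e1, e2, if_true, if_false] at this
      rw [h₂.fix0, ← hx0] at this
      have := h₁.nopair (k₂ + 1) 0 (by omega) (by omega) this
      omega
  subst hk
  have he : ∀ s, s ≤ k₁ → m₁ (x₁ s) = m₂ (x₂ s) := by
    intro s hs
    have := hcode s (by omega)
    simp only [hs, if_true] at this
    exact this
  have hxs : ∀ s, s ≤ k₁ → x₁ (s + 1) = x₂ (s + 1) := by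
    intro s hs
    rw [← switch_even hm₁ h₁ hs, ← switch_even hm₂ h₂ hs, hsw, he s hs]
  have hx : ∀ s, s ≤ k₁ + 1 → x₁ s = x₂ s := by
    intro s hs
    cases s with
    | zero => exact hx0
    | succ s => exact hxs s (by omega)
  funext y
  by_cases c1 : ∃ s, s ≤ k₁ + 1 ∧ y = x₁ s
  · obtain ⟨s, hs, rfl⟩ := c1
    rcases Nat.lt_or_ge s (k₁ + 1) with c | c
    · rw [he s (by omega), hx s hs]
    · have : s = k₁ + 1 := by omega
      subst this
      rw [h₁.fixL, hx _ hs, h₂.fixL]
  · by_cases c2 : ∃ s, s ≤ k₁ ∧ y = m₁ (x₁ s)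
    · obtain ⟨s, hs, rfl⟩ := c2
      rw [hm₁.invol, he s hs, hm₂.invol, hx s (by omega)]
    · have a1 : ∀ s, s ≤ k₁ → y ≠ x₁ (s + 1) := fun s hs hh => c1 ⟨s + 1, by omega, hh⟩
      have a2 : ∀ s, s ≤ k₁ → y ≠ m₁ (x₁ s) := fun s hs hh => c2 ⟨s, hs, hh⟩
      have b1 : ∀ s, s ≤ k₁ → y ≠ x₂ (s + 1) := fun s hs hh => a1 s hs (by rw [hxs s hs]; exact hh)
      have b2 : ∀ s, s ≤ k₁ → y ≠ m₂ (x₂ s) := fun s hs hh => a2 s hs (by rw [he s hs]; exact hh)
      rw [← switch_off a1 a2, ← switch_off b1 b2, hsw]

end switch

section counting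

/-- the near-perfect matchings of `G`, as partner maps -/
def nearPerfect (G : SimpleGraph V) : Set (V → V) :=
  {m | IsPartner G m ∧ {y | m y = y}.ncard = 2}

/-- the perfect matchings of `G`, as partner maps -/
def perfect (G : SimpleGraph V) : Set (V → V) :=
  {m | IsPartner G m ∧ ∀ y, m y ≠ y}

theorem fix_of_aug {G : SimpleGraph V} {m : V → V} (hfix : {y | m y = y}.ncard = 2)
    {k : ℕ} {x : ℕ → V} (h : Aug G m k x) : ∀ y, m y = y → y = x 0 ∨ y = x (k + 1) := by
  intro y hy
  obtain ⟨a, b, hab, hset⟩ := Set.ncard_eq_two.mp hfix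
  have m0 : x 0 ∈ ({a, b} : Set V) := by rw [← hset]; exact h.fix0
  have mL : x (k + 1) ∈ ({a, b} : Set V) := by rw [← hset]; exact h.fixL
  have my : y ∈ ({a, b} : Set V) := by rw [← hset]; exact hy
  have hne : x 0 ≠ x (k + 1) := fun hh => by
    have := h.inj 0 (k + 1) (by omega) (by omega) hh
    omega
  simp only [Set.mem_insert_iff, Set.mem_singleton_iff] at m0 mL my
  rcases m0 with e0 | e0 <;> rcases mL with eL | eL <;> rcases my with ey | ey
  all_goals first
    | exact absurd (e0.trans eL.symm) hne
    | exact Or.inl (ey.trans e0.symm)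
    | exact Or.inr (ey.trans eL.symm)

theorem card_nearPerfect_le [Finite V] (G : SimpleGraph V) (L : ℕ)
    (H : ∀ m ∈ nearPerfect G, ∃ k x, Aug G m k x ∧ k + 1 ≤ L) :
    (nearPerfect G).ncard ≤ Nat.card V ^ L * (perfect G).ncard := by
  have H' : ∀ m : nearPerfect G, ∃ k x, Aug G m.1 k x ∧ k + 1 ≤ L := fun m => H m.1 m.2
  choose kk xx hH using H'
  have hmem : ∀ m : nearPerfect G, switch m.1 (kk m) (xx m) ∈ perfect G := by
    intro m
    have hh := hH m
    exact switch_isPartner m.2.1 hh.1 (fix_of_aug m.2.2 hh.1)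
  let Φ : nearPerfect G → perfect G × (Fin L → V) := fun m =>
    (⟨switch m.1 (kk m) (xx m), hmem m⟩,
      fun s => m.1 (xx m (if (s : ℕ) ≤ kk m then (s : ℕ) else 0)))
  have hinj : Function.Injective Φ := by
    intro m₁ m₂ hΦ
    have h1 := hH m₁
    have h2 := hH m₂
    have e1 : switch m₁.1 (kk m₁) (xx m₁) = switch m₂.1 (kk m₂) (xx m₂) := by
      have := congrArg (fun p => (p.1 : V → V)) hΦ
      exact this
    have e2 : ∀ s, s < L → m₁.1 (xx m₁ (if s ≤ kk m₁ then s else 0)) =
        m₂.1 (xx m₂ (if s ≤ kk m₂ then s else 0)) := by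
      intro s hs
      have := congrFun (congrArg (fun p => p.2) hΦ) ⟨s, hs⟩
      exact this
    exact Subtype.ext (switch_determines m₁.2.1 m₂.2.1 h1.1 h2.1 h1.2 h2.2 e1 e2)
  have := Nat.card_le_card_of_injective Φ hinj
  rw [Nat.card_prod, Nat.card_fun, Nat.card_fin, Nat.card_coe_set_eq,
    Nat.card_coe_set_eq] at this
  rw [mul_comm]
  exact this

end counting

end Vale.Agent.Lib.P308
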