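import Vale.Agent.Lib.P308.Tree

/-!
# Counting near-perfect matchings through short augmenting sequences in bounded degree graphs

A near-perfect matching with an augmenting sequence of at most `K` steps is recovered from
the switched perfect matching, the first vertex of the sequence, and, for each step, the
index of the next even vertex among the at most `D` neighbours of the current odd vertex.
-/

namespace Vale.Agent.Lib.P308

open Classical

variable {V : Type*}

theorem exists_index [Fintype V] (G : SimpleGraph V) (D : ℕ) (w : V)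
    (hD : (G.neighborSet w).ncard ≤ D) :
    ∃ f : V → Fin (D + 1), (∀ y, G.Adj w y → f y ≠ 0) ∧
      ∀ y y', G.Adj w y → G.Adj w y' → f y = f y' → y = y' := by
  have : Fintype (G.neighborSet w) := Fintype.ofFinite _
  have hcard : Fintype.card (G.neighborSet w) ≤ Fintype.card (Fin D) := by
    rw [Fintype.card_fin, ← Nat.card_eq_fintype_card, Nat.card_coe_set_eq]
    exact hD
  obtain ⟨emb⟩ := Function.Embedding.nonempty_of_card_le hcard
  refine ⟨fun y => if h : G.Adj w y then Fin.succ (emb ⟨y, h⟩) else 0, ?_, ?_⟩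
  · intro y hy
    simp only [dif_pos hy]
    exact Fin.succ_ne_zero _
  · intro y y' hy hy' hh
    simp only [dif_pos hy, dif_pos hy'] at hh
    have := emb.injective (Fin.succ_injective _ hh)
    exact congrArg Subtype.val this

theorem card_nearPerfect_le_deg [Fintype V] (G : SimpleGraph V) (D K : ℕ)
    (hD : ∀ w, (G.neighborSet w).ncard ≤ D)
    (H : ∀ m ∈ nearPerfect G, ∃ k x, Aug G m k x ∧ k ≤ K) :
    (nearPerfect G).ncard ≤ Nat.card V * (D + 1) ^ K * (perfect G).ncard := by
  have hidx : ∀ w, ∃ f : V → Fin (D + 1), (∀ y, G.Adj w y → f y ≠ 0) ∧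
      ∀ y y', G.Adj w y → G.Adj w y' → f y = f y' → y = y' :=
    fun w => exists_index G D w (hD w)
  choose idx hidx0 hidxinj using hidx
  have H' : ∀ m : nearPerfect G, ∃ k x, Aug G m.1 k x ∧ k ≤ K := fun m => H m.1 m.2
  choose kk xx hH using H'
  have hmem : ∀ m : nearPerfect G, switch m.1 (kk m) (xx m) ∈ perfect G := by
    intro m
    have hh := hH m
    exact switch_isPartner m.2.1 hh.1 (fix_of_aug m.2.2 hh.1)
  let Φ : nearPerfect G → perfect G × V × (Fin K → Fin (D + 1)) := fun m =>
    (⟨switch m.1 (kk m) (xx m), hmem m⟩, xx m 0,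
      fun s => if (s : ℕ) + 1 ≤ kk m then idx (xx m ((s : ℕ) + 1)) (m.1 (xx m ((s : ℕ) + 1)))
        else 0)
  have hinj : Function.Injective Φ := by
    intro m₁ m₂ hΦ
    have h1 := hH m₁
    have h2 := hH m₂
    have e1 : switch m₁.1 (kk m₁) (xx m₁) = switch m₂.1 (kk m₂) (xx m₂) := by
      have := congrArg (fun p => (p.1 : V → V)) hΦ
      exact this
    have e0 : xx m₁ 0 = xx m₂ 0 := by
      have := congrArg (fun p => p.2.1) hΦ
      exact this
    have ec : ∀ s, s < K →
        (if s + 1 ≤ kk m₁ then idx (xx m₁ (s + 1)) (m₁.1 (xx m₁ (s + 1))) else 0) =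
        (if s + 1 ≤ kk m₂ then idx (xx m₂ (s + 1)) (m₂.1 (xx m₂ (s + 1))) else 0) := by
      intro s hs
      have := congrFun (congrArg (fun p => p.2.2) hΦ) ⟨s, hs⟩
      exact this
    have nz : ∀ (m : nearPerfect G) s, 1 ≤ s → s ≤ kk m →
        idx (xx m s) (m.1 (xx m s)) ≠ 0 := by
      intro m s hs1 hs
      exact hidx0 _ _ (m.2.1.adj _ ((hH m).1.nfix s hs1 hs))
    have hk : kk m₁ = kk m₂ := by
      rcases Nat.lt_trichotomy (kk m₁) (kk m₂) with c | c | c
      · exfalso
        have := ec (kk m₁) (by omega)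
        rw [if_neg (by omega), if_pos (by omega)] at this
        exact nz m₂ (kk m₁ + 1) (by omega) (by omega) this.symm
      · exact c
      · exfalso
        have := ec (kk m₂) (by omega)
        rw [if_pos (by omega), if_neg (by omega)] at this
        exact nz m₁ (kk m₂ + 1) (by omega) (by omega) this
    have he : ∀ s, s ≤ kk m₁ → m₁.1 (xx m₁ s) = m₂.1 (xx m₂ s) := by
      intro s
      induction s with
      | zero =>
        intro _
        rw [h1.1.fix0, h2.1.fix0]
        exact e0
      | succ s ih =>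
        intro hs
        have ih' := ih (by omega)
        have hx : xx m₁ (s + 1) = xx m₂ (s + 1) := by
          rw [← switch_even m₁.2.1 h1.1 (by omega : s ≤ kk m₁),
            ← switch_even m₂.2.1 h2.1 (by omega : s ≤ kk m₂), e1, ih']
        have hcode := ec s (by omega)
        rw [if_pos hs, if_pos (by omega)] at hcode
        have a1 : G.Adj (xx m₁ (s + 1)) (m₁.1 (xx m₁ (s + 1))) :=
          m₁.2.1.adj _ (h1.1.nfix (s + 1) (by omega) hs)
        have a2 : G.Adj (xx m₁ (s + 1)) (m₂.1 (xx m₂ (s + 1))) := by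
          rw [hx]
          exact m₂.2.1.adj _ (h2.1.nfix (s + 1) (by omega) (by omega))
        have hcode' : idx (xx m₁ (s + 1)) (m₁.1 (xx m₁ (s + 1))) =
            idx (xx m₁ (s + 1)) (m₂.1 (xx m₂ (s + 1))) := by
          rw [hcode, hx]
        exact hidxinj _ _ _ a1 a2 hcode'
    apply Subtype.ext
    refine switch_determines m₁.2.1 m₂.2.1 h1.1 h2.1 (L := K + 1) (by omega) (by omega) e1 ?_
    intro s hs
    by_cases c : s ≤ kk m₁
    · rw [if_pos c, if_pos (by omega)]
      exact he s c
    · rw [if_neg c, if_neg (by omega)]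
      exact he 0 (by omega)
  have := Nat.card_le_card_of_injective Φ hinj
  rw [Nat.card_prod, Nat.card_prod, Nat.card_fun, Nat.card_fin, Nat.card_fin,
    Nat.card_coe_set_eq, Nat.card_coe_set_eq] at this
  rw [mul_comm]
  exact this

/-- **Vertex expanders of bounded degree.** -/
theorem nearPerfect_le_of_expansion [Fintype V] (G : SimpleGraph V) (D g t : ℕ) (hg : 1 ≤ g)
    (hD : ∀ w, (G.neighborSet w).ncard ≤ D)
    (E1 : ∀ S : Finset V, S.card * g ≤ g ^ t → 4 * g * S.card ≤ (bdry G S).card + S.card)
    (E2 : ∀ S T : Finset V, S.card = g ^ t → T.card = g ^ t → Disjoint S T →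
      ∃ x ∈ S, ∃ y ∈ T, G.Adj x y) :
    (nearPerfect G).ncard ≤ Nat.card V * (D + 1) ^ (2 * t) * (perfect G).ncard := by
  apply card_nearPerfect_le_deg G D (2 * t) hD
  intro m hm
  obtain ⟨u, v, huv, hset⟩ := Set.ncard_eq_two.mp hm.2
  have hu : m u = u := by
    have : u ∈ {y | m y = y} := by rw [hset]; simp
    exact this
  have hv : m v = v := by
    have : v ∈ {y | m y = y} := by rw [hset]; simp
    exact this
  have hfix : ∀ y, m y = y → y = u ∨ y = v := by
    intro y hy
    have : y ∈ ({u, v} : Set V) := by rw [← hset]; exact hy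
    simpa using this
  exact exists_aug_of_expansion hm.1 huv hu hv hfix g t hg E1 E2

end Vale.Agent.Lib.P308
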