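import Vale.Agent.Lib.P308.Explore

/-!
# Double counting over matchings, augmenting sequences and labelings

A pair of a near-perfect matching and an augmenting sequence with `K` inner steps is recovered
from the switched perfect matching, the first vertex, and the indices of the `K` matching edges
of the sequence among the neighbours of their odd ends.  For a fixed pair exactly one labeling
in `q ^ (2 t)` opens all steps of the sequence other than the two middle ones.
-/

namespace Vale.Agent.Lib.P308

open Classical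

variable {V : Type*}

theorem Aug.congr {G : SimpleGraph V} {m : V → V} {k : ℕ} {x x' : ℕ → V} (h : Aug G m k x)
    (he : ∀ s, s ≤ k + 1 → x' s = x s) : Aug G m k x' := by
  refine ⟨?_, ?_, ?_, ?_, ?_, ?_⟩
  · rw [he 0 (by omega)]
    exact h.fix0
  · rw [he (k + 1) le_rfl]
    exact h.fixL
  · intro s h1 h2
    rw [he s (by omega)]
    exact h.nfix s h1 h2
  · intro s hs
    rw [he s (by omega), he (s + 1) (by omega)]
    exact h.adj s hs
  · intro s s' hs hs' hh
    rw [he s hs, he s' hs'] at hh
    exact h.inj s s' hs hs' hh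
  · intro s s' hs hs' hh
    rw [he s hs, he s' hs'] at hh
    exact h.nopair s s' hs hs' hh

theorem OpenPath.congr {m : V → V} {q : ℕ} {blk : V → V → Fin q} {t : ℕ}
    {lab : ℕ → V → Fin q} {x x' : ℕ → V} (h : OpenPath m blk t lab x)
    (he : ∀ s, s ≤ 2 * t + 2 → x' s = x s) : OpenPath m blk t lab x' := by
  refine ⟨?_, ?_⟩
  · intro s hs
    rw [he s (by omega), he (s + 1) (by omega)]
    exact h.1 s hs
  · intro s hs1 hs2
    rw [he s (by omega), he (s + 1) (by omega)]
    exact h.2 s hs1 hs2

/-- extend a finite sequence to all natural numbers by repeating its last entry -/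
def extX {K : ℕ} (X : Fin (K + 2) → V) (s : ℕ) : V :=
  X ⟨min s (K + 1), Nat.lt_succ_of_le (Nat.min_le_right _ _)⟩

theorem extX_of_le {K : ℕ} (X : Fin (K + 2) → V) (s : ℕ) (hs : s ≤ K + 1) :
    extX X s = X ⟨s, by omega⟩ := by
  unfold extX
  congr 1
  apply Fin.ext
  exact Nat.min_eq_left hs

theorem extX_res {K : ℕ} (x : ℕ → V) (s : ℕ) (hs : s ≤ K + 1) :
    extX (fun j : Fin (K + 2) => x j) s = x s := by
  rw [extX_of_le _ s hs]

theorem ncard_eq_card_filter {α : Type*} [Fintype α] (s : Set α) :
    s.ncard = (Finset.univ.filter (fun x => x ∈ s)).card := by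
  rw [← Set.ncard_coe_finset]
  congr 1
  ext x
  simp

theorem exists_index_fin [Fintype V] (G : SimpleGraph V) (D : ℕ) (hD0 : 0 < D) (w : V)
    (hD : (G.neighborSet w).ncard ≤ D) :
    ∃ f : V → Fin D, ∀ y y', G.Adj w y → G.Adj w y' → f y = f y' → y = y' := by
  have : Fintype (G.neighborSet w) := Fintype.ofFinite _
  have hcard : Fintype.card (G.neighborSet w) ≤ Fintype.card (Fin D) := by
    rw [Fintype.card_fin, ← Nat.card_eq_fintype_card, Nat.card_coe_set_eq]
    exact hD
  obtain ⟨emb⟩ := Function.Embedding.nonempty_of_card_le hcard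
  refine ⟨fun y => if h : G.Adj w y then emb ⟨y, h⟩ else ⟨0, hD0⟩, ?_⟩
  intro y y' hy hy' hh
  simp only [dif_pos hy, dif_pos hy'] at hh
  exact congrArg Subtype.val (emb.injective hh)

/-- the number of pairs of a near-perfect matching and an augmenting sequence -/
theorem card_aug_pairs [Fintype V] (G : SimpleGraph V) {d : ℕ} (hd : 0 < d)
    (hdeg : ∀ w : V, (G.neighborSet w).ncard ≤ d) (K : ℕ) :
    (Finset.univ.filter (fun p : (V → V) × (Fin (K + 2) → V) =>
      p.1 ∈ nearPerfect G ∧ Aug G p.1 K (extX p.2))).card ≤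
    (perfect G).ncard * (Fintype.card V * d ^ K) := by
  have hidx : ∀ w, ∃ f : V → Fin d, ∀ y y', G.Adj w y → G.Adj w y' → f y = f y' → y = y' :=
    fun w => exists_index_fin G d hd w (hdeg w)
  choose idx hidxinj using hidx
  obtain ⟨Phi, hPhi⟩ : ∃ Phi : (V → V) × (Fin (K + 2) → V) → (V → V) × V × (Fin K → Fin d),
      Phi = fun p : (V → V) × (Fin (K + 2) → V) => (switch p.1 K (extX p.2), p.2 0,
        fun s : Fin K => idx (extX p.2 ((s : ℕ) + 1)) (p.1 (extX p.2 ((s : ℕ) + 1)))) :=
    ⟨_, rfl⟩
  have htarget : ((Finset.univ.filter (fun f : V → V => f ∈ perfect G)) ×ˢ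
      (Finset.univ : Finset (V × (Fin K → Fin d)))).card =
      (perfect G).ncard * (Fintype.card V * d ^ K) := by
    rw [Finset.card_product, ← ncard_eq_card_filter, Finset.card_univ, Fintype.card_prod,
      Fintype.card_fun, Fintype.card_fin, Fintype.card_fin]
  rw [← htarget]
  apply Finset.card_le_card_of_injOn Phi
  · intro p hp
    simp only [Finset.coe_filter, Finset.mem_univ, true_and, Set.mem_ofPred_eq] at hp
    rw [hPhi]
    simp only [Finset.coe_product, Finset.coe_filter, Finset.mem_univ, true_and,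
      Finset.coe_univ, Set.mem_prod, Set.mem_ofPred_eq, Set.mem_univ, and_true]
    exact switch_isPartner hp.1.1 hp.2 (fix_of_aug hp.1.2 hp.2)
  · intro p₁ hp₁ p₂ hp₂ hh
    simp only [Finset.coe_filter, Finset.mem_univ, true_and, Set.mem_ofPred_eq] at hp₁ hp₂
    rw [hPhi] at hh
    simp only [Prod.mk.injEq] at hh
    obtain ⟨e1, e0, ec⟩ := hh
    obtain ⟨m₁, X₁⟩ := p₁
    obtain ⟨m₂, X₂⟩ := p₂
    simp only at hp₁ hp₂ e1 e0 ec
    obtain ⟨hm₁, h₁⟩ := hp₁
    obtain ⟨hm₂, h₂⟩ := hp₂
    have ec' : ∀ s, s < K → idx (extX X₁ (s + 1)) (m₁ (extX X₁ (s + 1))) =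
        idx (extX X₂ (s + 1)) (m₂ (extX X₂ (s + 1))) := by
      intro s hs
      exact congrFun ec ⟨s, hs⟩
    have e0' : extX X₁ 0 = extX X₂ 0 := by
      rw [extX_of_le X₁ 0 (by omega), extX_of_le X₂ 0 (by omega)]
      exact e0
    have he : ∀ s, s ≤ K → m₁ (extX X₁ s) = m₂ (extX X₂ s) := by
      intro s
      induction s with
      | zero =>
        intro _
        rw [h₁.fix0, h₂.fix0]
        exact e0'
      | succ s ih =>
        intro hs
        have ih' := ih (by omega)
        have hx : extX X₁ (s + 1) = extX X₂ (s + 1) := by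
          rw [← switch_even hm₁.1 h₁ (by omega : s ≤ K),
            ← switch_even hm₂.1 h₂ (by omega : s ≤ K), e1, ih']
        have hcode := ec' s (by omega)
        have a1 : G.Adj (extX X₁ (s + 1)) (m₁ (extX X₁ (s + 1))) :=
          hm₁.1.adj _ (h₁.nfix (s + 1) (by omega) hs)
        have a2 : G.Adj (extX X₁ (s + 1)) (m₂ (extX X₂ (s + 1))) := by
          rw [hx]
          exact hm₂.1.adj _ (h₂.nfix (s + 1) (by omega) hs)
        have hcode' : idx (extX X₁ (s + 1)) (m₁ (extX X₁ (s + 1))) =
            idx (extX X₁ (s + 1)) (m₂ (extX X₂ (s + 1))) := by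
          rw [hcode, hx]
        exact hidxinj _ _ _ a1 a2 hcode'
    have hxs : ∀ s, s ≤ K → extX X₁ (s + 1) = extX X₂ (s + 1) := by
      intro s hs
      rw [← switch_even hm₁.1 h₁ hs, ← switch_even hm₂.1 h₂ hs, e1, he s hs]
    have hmm : m₁ = m₂ := by
      refine switch_determines hm₁.1 hm₂.1 h₁ h₂ (L := K + 1) le_rfl le_rfl e1 ?_
      intro s hs
      have c : s ≤ K := by omega
      rw [if_pos c]
      exact he s c
    have hXX : X₁ = X₂ := by
      funext j
      obtain ⟨j, hj⟩ := j
      cases j with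
      | zero => exact e0
      | succ j =>
        have := hxs j (by omega)
        rw [extX_of_le X₁ (j + 1) (by omega), extX_of_le X₂ (j + 1) (by omega)] at this
        exact this
    rw [hmm, hXX]

theorem lev_fin {q : ℕ} (t : ℕ) (l : Fin (2 * t + 2) → V → Fin q) (s : ℕ)
    (hs : s < 2 * t + 2) : lev t l s = l ⟨s, hs⟩ := by
  unfold lev
  congr 1
  apply Fin.ext
  exact Nat.mod_eq_of_lt hs

/-- exactly one labeling in `q ^ (2 t)` opens a given sequence -/
theorem card_open [Fintype V] {q : ℕ} (m : V → V) (blk : V → V → Fin q) (t : ℕ)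
    (x : ℕ → V) :
    (Finset.univ.filter (fun l : Fin (2 * t + 2) → V → Fin q =>
      OpenPath m blk t (lev t l) x)).card * q ^ (2 * t) =
    Fintype.card (Fin (2 * t + 2) → V → Fin q) := by
  obtain ⟨A, hA⟩ : ∃ A : Fin (2 * t + 2) → Finset (V → Fin q), A = fun σ : Fin (2 * t + 2) =>
      if (σ : ℕ) < t then
        Finset.univ.filter (fun lab : V → Fin q =>
          lab (m (x σ)) = blk (m (x σ)) (x ((σ : ℕ) + 1)))
      else if t + 2 ≤ (σ : ℕ) then
        Finset.univ.filter (fun lab : V → Fin q =>
          lab (x ((σ : ℕ) + 1)) = blk (x ((σ : ℕ) + 1)) (m (x σ)))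
      else Finset.univ := ⟨_, rfl⟩
  have e : Finset.univ.filter (fun l : Fin (2 * t + 2) → V → Fin q =>
      OpenPath m blk t (lev t l) x) = Fintype.piFinset A := by
    ext l
    simp only [Finset.mem_filter, Finset.mem_univ, true_and, Fintype.mem_piFinset]
    constructor
    · rintro ⟨h1, h2⟩ σ
      rw [hA]
      by_cases c1 : (σ : ℕ) < t
      · simp only [c1, if_true, Finset.mem_filter, Finset.mem_univ, true_and]
        have := h1 σ c1
        rw [lev_fin t l σ σ.isLt] at this
        exact this
      · by_cases c2 : t + 2 ≤ (σ : ℕ)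
        · simp only [c1, c2, if_true, if_false, Finset.mem_filter, Finset.mem_univ, true_and]
          have := h2 σ c2 (by have := σ.isLt; omega)
          rw [lev_fin t l σ σ.isLt] at this
          exact this
        · simp only [c1, c2, if_false, Finset.mem_univ]
    · intro h
      refine ⟨?_, ?_⟩
      · intro s hs
        have := h ⟨s, by omega⟩
        rw [hA] at this
        simp only [hs, if_true, Finset.mem_filter, Finset.mem_univ, true_and] at this
        rw [lev_fin t l s (by omega)]
        exact this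
      · intro s hs1 hs2
        have := h ⟨s, by omega⟩
        rw [hA] at this
        have c1 : ¬ (s < t) := by omega
        simp only [c1, hs1, if_true, if_false, Finset.mem_filter, Finset.mem_univ,
          true_and] at this
        rw [lev_fin t l s (by omega)]
        exact this
  have hone : ∀ (w : V) (b : Fin q),
      (Finset.univ.filter (fun lab : V → Fin q => lab w = b)).card * q =
        q ^ Fintype.card V := by
    intro w b
    have h := card_fix q ({w} : Finset V) (fun _ => b)
    rw [Finset.card_singleton, pow_one] at h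
    have e' : Finset.univ.filter (fun f : V → Fin q => ∀ j ∈ ({w} : Finset V), f j = b) =
        Finset.univ.filter (fun lab : V → Fin q => lab w = b) := by
      ext f
      simp
    rw [e'] at h
    exact h
  have hAc : ∀ σ : Fin (2 * t + 2),
      (A σ).card * (if (σ : ℕ) < t ∨ t + 2 ≤ (σ : ℕ) then q else 1) = q ^ Fintype.card V := by
    intro σ
    rw [hA]
    by_cases c1 : (σ : ℕ) < t
    · simp only [c1, if_true, true_or]
      exact hone _ _
    · by_cases c2 : t + 2 ≤ (σ : ℕ)
      · simp only [c1, c2, if_true, if_false, or_true]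
        exact hone _ _
      · simp only [c1, c2, if_false, or_self, mul_one, Finset.card_univ, Fintype.card_fun,
          Fintype.card_fin]
  have hcnt : (Finset.univ.filter
      (fun σ : Fin (2 * t + 2) => (σ : ℕ) < t ∨ t + 2 ≤ (σ : ℕ))).card = 2 * t := by
    have h1 := Finset.card_filter_add_card_filter_not
      (s := (Finset.univ : Finset (Fin (2 * t + 2))))
      (fun σ : Fin (2 * t + 2) => (σ : ℕ) < t ∨ t + 2 ≤ (σ : ℕ))
    have h2 : Finset.univ.filter
        (fun σ : Fin (2 * t + 2) => ¬ ((σ : ℕ) < t ∨ t + 2 ≤ (σ : ℕ))) =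
        {(⟨t, by omega⟩ : Fin (2 * t + 2)), ⟨t + 1, by omega⟩} := by
      ext σ
      simp only [Finset.mem_filter, Finset.mem_univ, true_and, Finset.mem_insert,
        Finset.mem_singleton, Fin.ext_iff]
      omega
    have h3 : ({(⟨t, by omega⟩ : Fin (2 * t + 2)), ⟨t + 1, by omega⟩} :
        Finset (Fin (2 * t + 2))).card = 2 := by
      apply Finset.card_pair
      intro h
      have := congrArg Fin.val h
      simp at this
    rw [h2, h3, Finset.card_univ, Fintype.card_fin] at h1
    omega
  have hprod : (∏ σ : Fin (2 * t + 2), (A σ).card) *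
      (∏ σ : Fin (2 * t + 2), (if (σ : ℕ) < t ∨ t + 2 ≤ (σ : ℕ) then q else 1)) =
      (q ^ Fintype.card V) ^ (2 * t + 2) := by
    rw [← Finset.prod_mul_distrib, Finset.prod_congr rfl (fun σ _ => hAc σ), Finset.prod_const,
      Finset.card_univ, Fintype.card_fin]
  have hprod2 : (∏ σ : Fin (2 * t + 2), (if (σ : ℕ) < t ∨ t + 2 ≤ (σ : ℕ) then q else 1)) =
      q ^ (2 * t) := by
    rw [Finset.prod_ite, Finset.prod_const_one, mul_one, Finset.prod_const, hcnt]
  rw [e, Fintype.card_piFinset, ← hprod2, hprod, Fintype.card_fun, Fintype.card_fun,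
    Fintype.card_fin, Fintype.card_fin]

end Vale.Agent.Lib.P308
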