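import Vale.Agent.Lib.P308.Connect

/-!
# Growing both trees level by level under independent labelings

A labeling assigns to every level `s < 2 t + 2` and every vertex a label in `Fin q`.  The tree
of the first uncovered vertex uses the levels `0, ..., t - 1`, the tree of the second one the
levels `2 t + 1, ..., t + 2`.  Each level of growth succeeds for at least one labeling of that
level in `8`, independently of the other levels, hence at least one labeling in `8 ^ (2 t)`
admits an augmenting sequence all of whose steps except the two middle ones are opened.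
-/

namespace Vale.Agent.Lib.P308

open Classical

variable {V : Type*}

/-- the labels of level `s` -/
def lev {q : ℕ} (t : ℕ) (l : Fin (2 * t + 2) → V → Fin q) (s : ℕ) : V → Fin q :=
  l ⟨s % (2 * t + 2), Nat.mod_lt _ (by omega)⟩

theorem lev_update_ne {q : ℕ} (t : ℕ) (l : Fin (2 * t + 2) → V → Fin q) (i : ℕ)
    (hi : i < 2 * t + 2) (a : V → Fin q) (s : ℕ) (hs : s < 2 * t + 2) (hne : s ≠ i) :
    lev t (Function.update l ⟨i, hi⟩ a) s = lev t l s := by
  unfold lev
  apply Function.update_of_ne
  intro h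
  have := congrArg Fin.val h
  simp only [Nat.mod_eq_of_lt hs] at this
  exact hne this

theorem lev_update_self {q : ℕ} (t : ℕ) (l : Fin (2 * t + 2) → V → Fin q) (i : ℕ)
    (hi : i < 2 * t + 2) (a : V → Fin q) :
    lev t (Function.update l ⟨i, hi⟩ a) i = a := by
  unfold lev
  have e : (⟨i % (2 * t + 2), Nat.mod_lt _ (by omega)⟩ : Fin (2 * t + 2)) = ⟨i, hi⟩ := by
    apply Fin.ext
    exact Nat.mod_eq_of_lt hi
  rw [e, Function.update_self]

/-- both trees have been grown, to the levels `i` and `j` -/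
def Stage (G : SimpleGraph V) (m : V → V) {q : ℕ} (blk : V → V → Fin q) (u v : V) (t i j : ℕ)
    (l : Fin (2 * t + 2) → V → Fin q) : Prop :=
  ∃ Su Uu Sv Uv : Finset V, TreeOK G m blk u (lev t l) i Su Uu ∧
    TreeOK G m blk v (fun s => lev t l (2 * t + 1 - s)) j Sv Uv ∧ Disjoint Uu Uv

variable [Fintype V] (G : SimpleGraph V) [DecidableRel G.Adj]

theorem explore_prob {d : ℕ} (hd : 1 ≤ d) (hreg : G.IsRegularOfDegree d) {lam : ℝ}
    (hlam : 0 ≤ lam)
    (hspec : ∀ f : V → ℝ, ∑ x, f x = 0 →
      ∑ x, (∑ y ∈ G.neighborFinset x, f y) ^ 2 ≤ lam ^ 2 * ∑ x, f x ^ 2)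
    (hgap : 64 * lam ≤ d) {q : ℕ} (hq0 : 0 < q) (hq8 : 8 * q ≤ d) (hq64 : d < 64 * q)
    (blk : V → V → Fin q)
    (hblk : ∀ y (b : Fin q),
      q * ((G.neighborFinset y).filter (fun x => blk y x = b)).card ≤ 2 * d)
    (t : ℕ) (ht1 : ∀ i, i < t → 2048 * 2 ^ i ≤ Fintype.card V)
    (ht2 : Fintype.card V < 2048 * 2 ^ t) (ht3 : 9 * 2 ^ t ≤ Fintype.card V)
    {m : V → V} (hm : m ∈ nearPerfect G) :
    Fintype.card (Fin (2 * t + 2) → V → Fin q) ≤
      8 ^ (2 * t) * (Finset.univ.filter (fun l : Fin (2 * t + 2) → V → Fin q =>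
        ∃ X, Aug G m (2 * t + 1) X ∧ OpenPath m blk t (lev t l) X)).card := by
  have : Nonempty (V → Fin q) := ⟨fun _ => ⟨0, hq0⟩⟩
  obtain ⟨u, v, huv, hset⟩ := Set.ncard_eq_two.mp hm.2
  have hu : m u = u := by
    have : u ∈ {y | m y = y} := by rw [hset]; simp
    exact this
  have hv : m v = v := by
    have : v ∈ {y | m y = y} := by rw [hset]; simp
    exact this
  have hfix : ∀ y, m y = y → y = u ∨ y = v := by
    intro y hy
    have : y ∈ ({u, v} : Set V) := by rw [← hset]; exact hy
    simpa using this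
  have hinv := hm.1.invol
  -- growth of the first tree
  have stepU : ∀ i, i < t →
      (Finset.univ.filter (fun l : Fin (2 * t + 2) → V → Fin q =>
        Stage G m blk u v t i i l)).card ≤
      8 * (Finset.univ.filter (fun l : Fin (2 * t + 2) → V → Fin q =>
        Stage G m blk u v t (i + 1) i l)).card := by
    intro i hi
    refine card_step (⟨i, by omega⟩ : Fin (2 * t + 2))
      (fun l : Fin (2 * t + 2) → V → Fin q => Stage G m blk u v t i i l)
      (fun l : Fin (2 * t + 2) → V → Fin q => Stage G m blk u v t (i + 1) i l) 8 ?_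
    rintro l ⟨Su, Uu, Sv, Uv, hTu, hTv, hdisj⟩
    have h2i : 0 < 2 ^ i := Nat.pos_of_ne_zero (by positivity)
    have hW : (Uu ∪ Uv).card ≤ 12 * Su.card := by
      have h1 := Finset.card_union_le Uu Uv
      have h2 := hTu.cardU
      have h3 := hTv.cardU
      have h4 := hTu.cardS
      omega
    have hg := grow_prob G hreg hlam hspec hgap hq0 hq8 hq64 blk hblk Su (Uu ∪ Uv)
      (by rw [hTu.cardS]; exact h2i) (by rw [hTu.cardS]; exact ht1 i hi) hW
    refine le_trans hg (Nat.mul_le_mul_left _ (Finset.card_le_card ?_))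
    intro a ha
    rw [Finset.mem_filter] at ha ⊢
    refine ⟨Finset.mem_univ _, ?_⟩
    have hfix' : ∀ z, m z = z → z ∈ Uu ∪ Uv := by
      intro z hz
      rcases hfix z hz with rfl | rfl
      · exact Finset.mem_union_left _ hTu.root
      · exact Finset.mem_union_right _ hTv.root
    obtain ⟨S', U', hT', hdisj'⟩ := tree_extend hinv hTu hTv.closed hdisj hfix' a ha.2
      (lab' := lev t (Function.update l ⟨i, by omega⟩ a))
      (fun s hs => lev_update_ne t l i (by omega) a s (by omega) (by omega))
      (lev_update_self t l i (by omega) a)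
    refine ⟨S', U', Sv, Uv, hT', ?_, hdisj'⟩
    apply hTv.congr_lab
    intro s hs
    exact lev_update_ne t l i (by omega) a (2 * t + 1 - s) (by omega) (by omega)
  -- growth of the second tree
  have stepV : ∀ i, i < t →
      (Finset.univ.filter (fun l : Fin (2 * t + 2) → V → Fin q =>
        Stage G m blk u v t (i + 1) i l)).card ≤
      8 * (Finset.univ.filter (fun l : Fin (2 * t + 2) → V → Fin q =>
        Stage G m blk u v t (i + 1) (i + 1) l)).card := by
    intro i hi
    refine card_step (⟨2 * t + 1 - i, by omega⟩ : Fin (2 * t + 2))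
      (fun l : Fin (2 * t + 2) → V → Fin q => Stage G m blk u v t (i + 1) i l)
      (fun l : Fin (2 * t + 2) → V → Fin q => Stage G m blk u v t (i + 1) (i + 1) l) 8 ?_
    rintro l ⟨Su, Uu, Sv, Uv, hTu, hTv, hdisj⟩
    have h2i : 0 < 2 ^ i := Nat.pos_of_ne_zero (by positivity)
    have hW : (Uv ∪ Uu).card ≤ 12 * Sv.card := by
      have h1 := Finset.card_union_le Uv Uu
      have h2 := hTu.cardU
      have h3 := hTv.cardU
      have h4 := hTv.cardS
      have h5 : 2 ^ (i + 1) = 2 * 2 ^ i := by ring
      omega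
    have hg := grow_prob G hreg hlam hspec hgap hq0 hq8 hq64 blk hblk Sv (Uv ∪ Uu)
      (by rw [hTv.cardS]; exact h2i) (by rw [hTv.cardS]; exact ht1 i hi) hW
    refine le_trans hg (Nat.mul_le_mul_left _ (Finset.card_le_card ?_))
    intro a ha
    rw [Finset.mem_filter] at ha ⊢
    refine ⟨Finset.mem_univ _, ?_⟩
    have hfix' : ∀ z, m z = z → z ∈ Uv ∪ Uu := by
      intro z hz
      rcases hfix z hz with rfl | rfl
      · exact Finset.mem_union_right _ hTu.root
      · exact Finset.mem_union_left _ hTv.root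
    obtain ⟨S', U', hT', hdisj'⟩ := tree_extend hinv hTv hTu.closed hdisj.symm hfix' a ha.2
      (lab' := fun s => lev t (Function.update l ⟨2 * t + 1 - i, by omega⟩ a) (2 * t + 1 - s))
      (fun s hs => lev_update_ne t l (2 * t + 1 - i) (by omega) a (2 * t + 1 - s) (by omega)
        (by omega))
      (lev_update_self t l (2 * t + 1 - i) (by omega) a)
    refine ⟨Su, Uu, S', U', ?_, hT', hdisj'.symm⟩
    apply hTu.congr_lab
    intro s hs
    exact lev_update_ne t l (2 * t + 1 - i) (by omega) a s (by omega) (by omega)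
  -- all levels
  have hall : ∀ i, i ≤ t →
      (Finset.univ.filter (fun l : Fin (2 * t + 2) → V → Fin q =>
        Stage G m blk u v t 0 0 l)).card ≤
      8 ^ (2 * i) * (Finset.univ.filter (fun l : Fin (2 * t + 2) → V → Fin q =>
        Stage G m blk u v t i i l)).card := by
    intro i
    induction i with
    | zero =>
      intro _
      simp
    | succ i ih =>
      intro hi
      have h1 := ih (by omega)
      have h2 := stepU i (by omega)
      have h3 := stepV i (by omega)
      calc _ ≤ 8 ^ (2 * i) * (Finset.univ.filter (fun l : Fin (2 * t + 2) → V → Fin q =>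
            Stage G m blk u v t i i l)).card := h1
        _ ≤ 8 ^ (2 * i) * (8 * (8 * (Finset.univ.filter
            (fun l : Fin (2 * t + 2) → V → Fin q =>
              Stage G m blk u v t (i + 1) (i + 1) l)).card)) :=
            Nat.mul_le_mul_left _ (le_trans h2 (Nat.mul_le_mul_left _ h3))
        _ = 8 ^ (2 * (i + 1)) * (Finset.univ.filter (fun l : Fin (2 * t + 2) → V → Fin q =>
            Stage G m blk u v t (i + 1) (i + 1) l)).card := by ring
  -- the start
  have h0 : Finset.univ.filter (fun l : Fin (2 * t + 2) → V → Fin q =>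
      Stage G m blk u v t 0 0 l) = Finset.univ := by
    apply Finset.filter_true_of_mem
    intro l _
    refine ⟨{u}, {u}, {v}, {v}, tree_zero G blk _ hu, tree_zero G blk _ hv, ?_⟩
    rw [Finset.disjoint_singleton]
    exact huv
  -- the end
  have hend : Finset.univ.filter (fun l : Fin (2 * t + 2) → V → Fin q =>
      Stage G m blk u v t t t l) ⊆
      Finset.univ.filter (fun l : Fin (2 * t + 2) → V → Fin q =>
        ∃ X, Aug G m (2 * t + 1) X ∧ OpenPath m blk t (lev t l) X) := by
    intro l hl
    rw [Finset.mem_filter] at hl ⊢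
    refine ⟨Finset.mem_univ _, ?_⟩
    obtain ⟨Su, Uu, Sv, Uv, hTu, hTv, hdisj⟩ := hl.2
    have hWc : ∀ z ∈ Uu ∪ Uv, m z ∈ Uu ∪ Uv := by
      intro z hz
      rw [Finset.mem_union] at hz ⊢
      rcases hz with hz | hz
      · exact Or.inl (hTu.closed z hz)
      · exact Or.inr (hTv.closed z hz)
    have hWcard : (Uu ∪ Uv).card ≤ 8 * 2 ^ t := by
      have h1 := Finset.card_union_le Uu Uv
      have h2 := hTu.cardU
      have h3 := hTv.cardU
      omega
    obtain ⟨x, hxW, ⟨y, hy, hadj1⟩, ⟨y', hy', hadj2⟩⟩ :=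
      exists_middle G hd hreg hlam hspec hgap hinv Su Sv (Uu ∪ Uv) (2 ^ t) hTu.cardS hTv.cardS
        hWc hWcard ht2 ht3
    rw [Finset.mem_union, not_or] at hxW
    obtain ⟨pu, hpu, hpuy, hpuU⟩ := hTu.path y hy
    obtain ⟨pv, hpv, hpvy, hpvU⟩ := hTv.path y' hy'
    have hmx : m x ≠ x := by
      intro h
      rcases hfix x h with rfl | rfl
      · exact hxW.1 hTu.root
      · exact hxW.2 hTv.root
    exact join_paths hinv hu hv hpu hpv hpuU hpvU hTu.closed hTv.closed hdisj hxW.1 hxW.2 hmx
      (by rw [hpuy]; exact hadj1) (by rw [hpvy]; exact hadj2) (fun s _ => rfl) (fun s _ => rfl)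
  have h1 := hall t le_rfl
  rw [h0, Finset.card_univ] at h1
  exact le_trans h1 (Nat.mul_le_mul_left _ (Finset.card_le_card hend))

end Vale.Agent.Lib.P308
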