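import Mathlib

/-!
# Counting labelings

Elementary counting facts about the finite set of all functions from a finite type to a
finite type: the number of functions with prescribed values on a set of points, and a
resampling identity for one coordinate.
-/

namespace Vale.Agent.Lib.P308

open Classical

/-- the number of functions into `Fin q` with prescribed values on `J` -/
theorem card_fix {ι : Type*} [Fintype ι] [DecidableEq ι] (q : ℕ) (J : Finset ι) (b : ι → Fin q) :
    (Finset.univ.filter (fun f : ι → Fin q => ∀ j ∈ J, f j = b j)).card * q ^ J.card =
      q ^ Fintype.card ι := by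
  have e : Finset.univ.filter (fun f : ι → Fin q => ∀ j ∈ J, f j = b j) =
      Fintype.piFinset (fun j => if j ∈ J then ({b j} : Finset (Fin q)) else Finset.univ) := by
    ext f
    simp only [Finset.mem_filter, Finset.mem_univ, true_and, Fintype.mem_piFinset]
    constructor
    · intro h j
      by_cases hj : j ∈ J
      · simp [hj, h j hj]
      · simp [hj]
    · intro h j hj
      have := h j
      simpa [hj] using this
  rw [e, Fintype.card_piFinset]
  have hc : ∀ j, (if j ∈ J then ({b j} : Finset (Fin q)) else Finset.univ).card =
      if j ∈ J then 1 else q := by
    intro j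
    split_ifs <;> simp
  simp only [hc]
  rw [Finset.prod_ite, Finset.prod_const_one, one_mul, Finset.prod_const, ← pow_add]
  congr 1
  have h1 : Finset.univ.filter (fun j => j ∉ J) = Jᶜ := by
    ext j
    simp
  rw [h1, Finset.card_compl]
  have := Finset.card_le_univ J
  omega

/-- resampling one coordinate -/
theorem sum_card_update {ι A : Type*} [Fintype ι] [DecidableEq ι] [Fintype A] (i : ι)
    (Q : (ι → A) → Prop) :
    ∑ l : ι → A, (Finset.univ.filter (fun a : A => Q (Function.update l i a))).card =
      Fintype.card A * (Finset.univ.filter Q).card := by
  have hinv : Function.Involutive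
      (fun p : (ι → A) × A => (Function.update p.1 i p.2, p.1 i)) := by
    rintro ⟨l, a⟩
    simp
  calc ∑ l : ι → A, (Finset.univ.filter (fun a : A => Q (Function.update l i a))).card
      = ∑ l : ι → A, ∑ a : A, (if Q (Function.update l i a) then 1 else 0) := by
        apply Finset.sum_congr rfl
        intro l _
        rw [Finset.card_filter]
    _ = ∑ p : (ι → A) × A, (if Q (Function.update p.1 i p.2) then 1 else 0) := by
        rw [Fintype.sum_prod_type]
    _ = ∑ p : (ι → A) × A, (if Q p.1 then 1 else 0) :=
        Equiv.sum_comp (hinv.toPerm _) (fun p : (ι → A) × A => if Q p.1 then 1 else 0)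
    _ = ∑ l : ι → A, ∑ _a : A, (if Q l then 1 else 0) := by
        rw [Fintype.sum_prod_type]
    _ = Fintype.card A * (Finset.univ.filter Q).card := by
        simp only [Finset.sum_const, Finset.card_univ, smul_eq_mul]
        rw [← Finset.mul_sum, Finset.card_filter]

/-- one independent step: if from every labeling satisfying `P` at least one in `c`
resamplings of coordinate `i` satisfies `P'`, then `P'` is at most `c` times rarer. -/
theorem card_step {ι A : Type*} [Fintype ι] [DecidableEq ι] [Fintype A] [Nonempty A] (i : ι)
    (P P' : (ι → A) → Prop) (c : ℕ)
    (hstep : ∀ l, P l →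
      Fintype.card A ≤ c * (Finset.univ.filter (fun a : A => P' (Function.update l i a))).card) :
    (Finset.univ.filter P).card ≤ c * (Finset.univ.filter P').card := by
  have hA : 0 < Fintype.card A := Fintype.card_pos
  have h1 := sum_card_update i P'
  have h2 : (Finset.univ.filter P).card * Fintype.card A ≤
      c * ∑ l : ι → A, (Finset.univ.filter (fun a : A => P' (Function.update l i a))).card := by
    rw [Finset.mul_sum, Finset.card_eq_sum_ones, Finset.sum_mul, Finset.sum_filter]
    apply Finset.sum_le_sum
    intro l _
    split_ifs with hl
    · rw [one_mul]
      exact hstep l hl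
    · exact Nat.zero_le _
  rw [h1] at h2
  have h3 : (Finset.univ.filter P).card * Fintype.card A ≤
      (c * (Finset.univ.filter P').card) * Fintype.card A := by
    calc _ ≤ c * (Fintype.card A * (Finset.univ.filter P').card) := h2
      _ = _ := by ring
  exact Nat.le_of_mul_le_mul_right h3 hA

end Vale.Agent.Lib.P308
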