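import Vale.Agent.Lib.P308.Spectral
import Vale.Agent.Lib.P308.Labels

/-!
# One level of growth under a random labeling

Every even vertex `y` of a frontier `S` carries a label `lab y`, and its neighbours are
split into blocks `blk y`.  A neighbour `x` of `y` is opened by `y` when it lies in the block
selected by the label.  In a regular spectral expander a uniformly random labeling opens at
least `4 |S|` vertices outside a small forbidden set `W` with frequency at least `1 / 8`.
-/

namespace Vale.Agent.Lib.P308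

open Classical

variable {V : Type*} [Fintype V]

/-- inclusion and exclusion for labelings: the number of labelings hitting a prescribed
value somewhere on `T` -/
theorem bonf (q : ℕ) (hq : 0 < q) (T : Finset V) (b : V → Fin q) :
    (Fintype.card (V → Fin q) : ℝ) * ((T.card : ℝ) / q - (T.card : ℝ) ^ 2 / q ^ 2) ≤
      ((Finset.univ.filter (fun lab : V → Fin q => ∃ y ∈ T, lab y = b y)).card : ℝ) := by
  obtain ⟨Lc, hLc⟩ : ∃ Lc : ℝ, Lc = (Fintype.card (V → Fin q) : ℝ) := ⟨_, rfl⟩
  rw [← hLc]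
  have hqr : (0 : ℝ) < q := by exact_mod_cast hq
  have hLc0 : 0 ≤ Lc := by
    rw [hLc]
    positivity
  have hcardL : Fintype.card (V → Fin q) = q ^ Fintype.card V := by
    rw [Fintype.card_fun, Fintype.card_fin]
  have one : ∀ y, ((Finset.univ.filter (fun lab : V → Fin q => lab y = b y)).card : ℝ) =
      Lc / q := by
    intro y
    have h := card_fix q ({y} : Finset V) b
    rw [Finset.card_singleton, pow_one, ← hcardL] at h
    have e : Finset.univ.filter (fun f : V → Fin q => ∀ j ∈ ({y} : Finset V), f j = b j) =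
        Finset.univ.filter (fun lab : V → Fin q => lab y = b y) := by
      ext f
      simp
    rw [e] at h
    rw [eq_div_iff hqr.ne', hLc]
    exact_mod_cast h
  have two : ∀ y y', y ≠ y' →
      ((Finset.univ.filter (fun lab : V → Fin q => lab y = b y ∧ lab y' = b y')).card : ℝ) =
      Lc / q ^ 2 := by
    intro y y' hne
    have h := card_fix q ({y, y'} : Finset V) b
    rw [Finset.card_pair hne, ← hcardL] at h
    have e : Finset.univ.filter (fun f : V → Fin q => ∀ j ∈ ({y, y'} : Finset V), f j = b j) =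
        Finset.univ.filter (fun lab : V → Fin q => lab y = b y ∧ lab y' = b y') := by
      ext f
      simp
    rw [e] at h
    rw [eq_div_iff (by positivity), hLc]
    exact_mod_cast h
  obtain ⟨r, hr⟩ : ∃ r : (V → Fin q) → ℝ,
      r = fun lab => ∑ y ∈ T, (if lab y = b y then (1 : ℝ) else 0) := ⟨_, rfl⟩
  have hpt : ∀ lab : V → Fin q,
      2 * r lab - r lab ^ 2 ≤ (if ∃ y ∈ T, lab y = b y then (1 : ℝ) else 0) := by
    intro lab
    split_ifs with h
    · nlinarith [sq_nonneg (r lab - 1)]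
    · have : r lab = 0 := by
        rw [hr]
        apply Finset.sum_eq_zero
        intro y hy
        rw [if_neg]
        exact fun hh => h ⟨y, hy, hh⟩
      rw [this]
      norm_num
  have hsum1 : ∑ lab : V → Fin q, r lab = T.card * (Lc / q) := by
    rw [hr, Finset.sum_comm]
    have : ∀ y ∈ T, ∑ lab : V → Fin q, (if lab y = b y then (1 : ℝ) else 0) = Lc / q := by
      intro y _
      rw [Finset.sum_boole]
      exact one y
    rw [Finset.sum_congr rfl this, Finset.sum_const, nsmul_eq_mul]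
  have hsum2 : ∑ lab : V → Fin q, r lab ^ 2 ≤
      T.card * (Lc / q) + (T.card : ℝ) ^ 2 * (Lc / q ^ 2) := by
    have e1 : ∀ lab : V → Fin q, r lab ^ 2 = ∑ y ∈ T, ∑ y' ∈ T,
        (if lab y = b y ∧ lab y' = b y' then (1 : ℝ) else 0) := by
      intro lab
      rw [hr, sq, Finset.sum_mul_sum]
      apply Finset.sum_congr rfl
      intro y _
      apply Finset.sum_congr rfl
      intro y' _
      by_cases h1 : lab y = b y <;> by_cases h2 : lab y' = b y' <;> simp [h1, h2]
    simp only [e1]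
    rw [Finset.sum_comm]
    have e2 : ∀ y ∈ T, ∑ lab : V → Fin q, ∑ y' ∈ T,
        (if lab y = b y ∧ lab y' = b y' then (1 : ℝ) else 0) ≤
        Lc / q + T.card * (Lc / q ^ 2) := by
      intro y hy
      rw [Finset.sum_comm]
      have e3 : ∀ y' ∈ T, ∑ lab : V → Fin q,
          (if lab y = b y ∧ lab y' = b y' then (1 : ℝ) else 0) ≤
          (if y = y' then Lc / q else 0) + Lc / q ^ 2 := by
        intro y' _
        rw [Finset.sum_boole]
        by_cases hyy : y = y'
        · subst hyy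
          rw [if_pos rfl]
          have : Finset.univ.filter (fun lab : V → Fin q => lab y = b y ∧ lab y = b y) =
              Finset.univ.filter (fun lab : V → Fin q => lab y = b y) := by
            ext f
            simp
          rw [this, one y]
          have : 0 ≤ Lc / q ^ 2 := by positivity
          linarith
        · rw [if_neg hyy, two y y' hyy]
          linarith
      calc ∑ y' ∈ T, ∑ lab : V → Fin q,
            (if lab y = b y ∧ lab y' = b y' then (1 : ℝ) else 0)
          ≤ ∑ y' ∈ T, ((if y = y' then Lc / q else 0) + Lc / q ^ 2) := Finset.sum_le_sum e3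
        _ = Lc / q + T.card * (Lc / q ^ 2) := by
            rw [Finset.sum_add_distrib, Finset.sum_ite_eq, if_pos hy, Finset.sum_const,
              nsmul_eq_mul]
    calc ∑ y ∈ T, ∑ lab : V → Fin q, ∑ y' ∈ T,
          (if lab y = b y ∧ lab y' = b y' then (1 : ℝ) else 0)
        ≤ ∑ y ∈ T, (Lc / q + T.card * (Lc / q ^ 2)) := Finset.sum_le_sum e2
      _ = T.card * (Lc / q) + (T.card : ℝ) ^ 2 * (Lc / q ^ 2) := by
          rw [Finset.sum_const, nsmul_eq_mul]
          ring
  have hfin : ((Finset.univ.filter (fun lab : V → Fin q => ∃ y ∈ T, lab y = b y)).card : ℝ) =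
      ∑ lab : V → Fin q, (if ∃ y ∈ T, lab y = b y then (1 : ℝ) else 0) := by
    rw [Finset.sum_boole]
  rw [hfin]
  calc Lc * ((T.card : ℝ) / q - (T.card : ℝ) ^ 2 / q ^ 2)
      = 2 * (T.card * (Lc / q)) - (T.card * (Lc / q) + (T.card : ℝ) ^ 2 * (Lc / q ^ 2)) := by
        ring
    _ ≤ 2 * ∑ lab : V → Fin q, r lab - ∑ lab : V → Fin q, r lab ^ 2 := by
        rw [hsum1]
        linarith
    _ = ∑ lab : V → Fin q, (2 * r lab - r lab ^ 2) := by
        rw [Finset.sum_sub_distrib, Finset.mul_sum]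
    _ ≤ ∑ lab : V → Fin q, (if ∃ y ∈ T, lab y = b y then (1 : ℝ) else 0) :=
        Finset.sum_le_sum (fun lab _ => hpt lab)

variable (G : SimpleGraph V) [DecidableRel G.Adj]

/-- the vertices outside `W` opened from the frontier `S` by the labeling `lab` -/
noncomputable def newOdd {q : ℕ} (blk : V → V → Fin q) (S W : Finset V)
    (lab : V → Fin q) : Finset V :=
  Finset.univ.filter (fun x => x ∉ W ∧ ∃ y ∈ S, G.Adj y x ∧ lab y = blk y x)

theorem tau_card (S : Finset V) (x : V) :
    ((S.filter (fun y => G.Adj y x)).card : ℝ) = ∑ y ∈ G.neighborFinset x, ind S y := by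
  unfold ind
  rw [Finset.sum_boole]
  congr 2
  ext y
  simp only [Finset.mem_filter, SimpleGraph.mem_neighborFinset]
  exact ⟨fun h => ⟨h.2.symm, h.1⟩, fun h => ⟨h.2, h.1.symm⟩⟩

theorem sum_tau_sq {d : ℕ} (hreg : G.IsRegularOfDegree d) {lam : ℝ}
    (hspec : ∀ f : V → ℝ, ∑ x, f x = 0 →
      ∑ x, (∑ y ∈ G.neighborFinset x, f y) ^ 2 ≤ lam ^ 2 * ∑ x, f x ^ 2)
    (S : Finset V) (hN : 0 < Fintype.card V) :
    ∑ x, (∑ y ∈ G.neighborFinset x, ind S y) ^ 2 ≤
      lam ^ 2 * S.card + (d : ℝ) ^ 2 * (S.card : ℝ) ^ 2 / Fintype.card V := by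
  have hNpos : (0 : ℝ) < Fintype.card V := by exact_mod_cast hN
  have hcen := centred_le G hreg hspec S hN
  obtain ⟨a, ha⟩ : ∃ a : V → ℝ, a = fun x => ∑ y ∈ G.neighborFinset x, ind S y := ⟨_, rfl⟩
  obtain ⟨c, hc⟩ : ∃ c : ℝ, c = (S.card : ℝ) / Fintype.card V := ⟨_, rfl⟩
  rw [← hc] at hcen
  have h_total : ∑ x, a x = d * S.card := by
    rw [ha, sum_nbr_sum G hreg, sum_ind]
  have hNc : (Fintype.card V : ℝ) * c = S.card := by
    rw [hc]
    field_simp
  have hQ : ∑ x, a x ^ 2 = ∑ x, (a x - d * c) ^ 2 + Fintype.card V * (d * c) ^ 2 := by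
    have e : ∀ x, a x ^ 2 = (a x - d * c) ^ 2 + 2 * (d * c) * a x - (d * c) ^ 2 := by
      intro x
      ring
    simp only [e]
    rw [Finset.sum_sub_distrib, Finset.sum_add_distrib, ← Finset.mul_sum, h_total,
      Finset.sum_const, Finset.card_univ, nsmul_eq_mul]
    have h2 : (Fintype.card V : ℝ) * (d * c) ^ 2 = d * c * (d * S.card) := by
      rw [← hNc]
      ring
    linarith
  have hcen' : ∑ x, (a x - d * c) ^ 2 ≤ lam ^ 2 * S.card := by
    rw [ha]
    exact hcen
  have e3 : (Fintype.card V : ℝ) * (d * c) ^ 2 =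
      (d : ℝ) ^ 2 * (S.card : ℝ) ^ 2 / Fintype.card V := by
    rw [hc]
    field_simp
  have hgoal : ∑ x, a x ^ 2 ≤
      lam ^ 2 * S.card + (d : ℝ) ^ 2 * (S.card : ℝ) ^ 2 / Fintype.card V := by
    rw [hQ, e3]
    linarith
  rw [ha] at hgoal
  exact hgoal

/-- **One level of growth.** -/
theorem grow_prob {d : ℕ} (hreg : G.IsRegularOfDegree d) {lam : ℝ} (hlam : 0 ≤ lam)
    (hspec : ∀ f : V → ℝ, ∑ x, f x = 0 →
      ∑ x, (∑ y ∈ G.neighborFinset x, f y) ^ 2 ≤ lam ^ 2 * ∑ x, f x ^ 2)
    (hgap : 64 * lam ≤ d) {q : ℕ} (hq0 : 0 < q) (hq8 : 8 * q ≤ d) (hq64 : d < 64 * q)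
    (blk : V → V → Fin q)
    (hblk : ∀ y (b : Fin q),
      q * ((G.neighborFinset y).filter (fun x => blk y x = b)).card ≤ 2 * d)
    (S W : Finset V) (hS : 0 < S.card) (hSN : 2048 * S.card ≤ Fintype.card V)
    (hW : W.card ≤ 12 * S.card) :
    Fintype.card (V → Fin q) ≤ 8 * (Finset.univ.filter (fun lab : V → Fin q =>
      4 * S.card ≤ (newOdd G blk S W lab).card)).card := by
  obtain ⟨Lc, hLc⟩ : ∃ Lc : ℝ, Lc = (Fintype.card (V → Fin q) : ℝ) := ⟨_, rfl⟩
  have hLc0 : 0 ≤ Lc := by
    rw [hLc]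
    positivity
  obtain ⟨a, ha⟩ : ∃ a : ℝ, a = S.card := ⟨_, rfl⟩
  obtain ⟨N, hN⟩ : ∃ N : ℝ, N = Fintype.card V := ⟨_, rfl⟩
  have hcardpos : 0 < Fintype.card V := by omega
  have hNpos : 0 < N := by
    rw [hN]
    exact_mod_cast hcardpos
  have ha1 : 1 ≤ a := by
    rw [ha]
    exact_mod_cast hS
  have haN : 2048 * a ≤ N := by
    rw [ha, hN]
    exact_mod_cast hSN
  have hqr : (0 : ℝ) < q := by exact_mod_cast hq0
  have hd8 : 8 * (q : ℝ) ≤ d := by exact_mod_cast hq8
  have hd64 : (d : ℝ) < 64 * q := by exact_mod_cast hq64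
  have hdpos : (0 : ℝ) < d := by linarith
  have hWr : (W.card : ℝ) ≤ 12 * a := by
    rw [ha]
    exact_mod_cast hW
  obtain ⟨tau, htau⟩ : ∃ tau : V → ℝ, tau = fun x => ∑ y ∈ G.neighborFinset x, ind S y :=
    ⟨_, rfl⟩
  have hsum : ∑ x, tau x = d * a := by
    rw [htau, ha, sum_nbr_sum G hreg, sum_ind]
  have hsq : ∑ x, tau x ^ 2 ≤ lam ^ 2 * a + (d : ℝ) ^ 2 * a ^ 2 / N := by
    rw [htau, ha, hN]
    exact sum_tau_sq G hreg hspec S hcardpos
  -- the second moment of the degrees into `S`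
  have hS2 : ∑ x, tau x ^ 2 ≤ (d : ℝ) ^ 2 * a * (3 / 4096) := by
    have h1 : lam ^ 2 ≤ (d : ℝ) ^ 2 / 4096 := by
      have := pow_le_pow_left₀ (by positivity) hgap 2
      have e : (64 * lam) ^ 2 = 4096 * lam ^ 2 := by ring
      rw [e] at this
      linarith
    have h2 : (d : ℝ) ^ 2 * a ^ 2 / N ≤ (d : ℝ) ^ 2 * a / 2048 := by
      rw [div_le_iff₀ hNpos]
      have h3 : (d : ℝ) ^ 2 * a / 2048 * (2048 * a) ≤ (d : ℝ) ^ 2 * a / 2048 * N :=
        mul_le_mul_of_nonneg_left haN (by positivity)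
      have e : (d : ℝ) ^ 2 * a / 2048 * (2048 * a) = (d : ℝ) ^ 2 * a ^ 2 := by ring
      rw [e] at h3
      exact h3
    have h4 : lam ^ 2 * a ≤ (d : ℝ) ^ 2 / 4096 * a :=
      mul_le_mul_of_nonneg_right h1 (by linarith)
    linarith
  -- per vertex lower bound
  have hx : ∀ x, Lc * (tau x / q - tau x ^ 2 / q ^ 2) ≤
      ((Finset.univ.filter (fun lab : V → Fin q =>
        ∃ y ∈ S, G.Adj y x ∧ lab y = blk y x)).card : ℝ) := by
    intro x
    have h := bonf q hq0 (S.filter (fun y => G.Adj y x)) (fun y => blk y x)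
    rw [tau_card G S x, ← hLc] at h
    have e : Finset.univ.filter (fun lab : V → Fin q =>
        ∃ y ∈ S.filter (fun y => G.Adj y x), lab y = blk y x) =
        Finset.univ.filter (fun lab : V → Fin q => ∃ y ∈ S, G.Adj y x ∧ lab y = blk y x) := by
      ext lab
      simp only [Finset.mem_filter, Finset.mem_univ, true_and]
      constructor
      · rintro ⟨y, ⟨hy, hadj⟩, hl⟩
        exact ⟨y, hy, hadj, hl⟩
      · rintro ⟨y, hy, hadj, hl⟩
        exact ⟨y, ⟨hy, hadj⟩, hl⟩
    rw [e] at h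
    rw [htau]
    exact h
  -- exchange of summation
  have hswap : ∑ lab : V → Fin q, ((newOdd G blk S W lab).card : ℝ) =
      ∑ x ∈ Wᶜ, ((Finset.univ.filter (fun lab : V → Fin q =>
        ∃ y ∈ S, G.Adj y x ∧ lab y = blk y x)).card : ℝ) := by
    have e1 : ∀ lab : V → Fin q, ((newOdd G blk S W lab).card : ℝ) =
        ∑ x ∈ Wᶜ, (if ∃ y ∈ S, G.Adj y x ∧ lab y = blk y x then (1 : ℝ) else 0) := by
      intro lab
      rw [Finset.sum_boole]
      congr 2
      ext x
      simp [newOdd]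
    simp only [e1]
    rw [Finset.sum_comm]
    apply Finset.sum_congr rfl
    intro x _
    rw [Finset.sum_boole]
  -- lower bound for the total
  have hA : ∑ x ∈ Wᶜ, tau x = d * a - ∑ x ∈ W, tau x := by
    have := Finset.sum_compl_add_sum W tau
    linarith
  have hB : ∑ x ∈ W, tau x ≤ 64 / d * ∑ x, tau x ^ 2 + d / 256 * (12 * a) := by
    have h1 : ∀ x ∈ W, tau x ≤ 64 / d * tau x ^ 2 + d / 256 := by
      intro x _
      have h2 : 0 ≤ (8 * tau x - d / 16) ^ 2 / d := by positivity
      have e : (8 * tau x - d / 16) ^ 2 / d = 64 / d * tau x ^ 2 + d / 256 - tau x := by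
        field_simp
        ring
      linarith
    calc ∑ x ∈ W, tau x ≤ ∑ x ∈ W, (64 / d * tau x ^ 2 + d / 256) := Finset.sum_le_sum h1
      _ = 64 / d * ∑ x ∈ W, tau x ^ 2 + d / 256 * W.card := by
          rw [Finset.sum_add_distrib, ← Finset.mul_sum, Finset.sum_const, nsmul_eq_mul]
          ring
      _ ≤ 64 / d * ∑ x, tau x ^ 2 + d / 256 * (12 * a) := by
          have h3 : ∑ x ∈ W, tau x ^ 2 ≤ ∑ x, tau x ^ 2 :=
            Finset.sum_le_univ_sum_of_nonneg (fun x => sq_nonneg _)
          have h4 : 64 / (d : ℝ) * ∑ x ∈ W, tau x ^ 2 ≤ 64 / d * ∑ x, tau x ^ 2 :=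
            mul_le_mul_of_nonneg_left h3 (by positivity)
          have h5 : (d : ℝ) / 256 * W.card ≤ d / 256 * (12 * a) :=
            mul_le_mul_of_nonneg_left hWr (by positivity)
          linarith
  have hC : ∑ x ∈ Wᶜ, tau x ^ 2 ≤ ∑ x, tau x ^ 2 :=
    Finset.sum_le_univ_sum_of_nonneg (fun x => sq_nonneg _)
  have hlow : Lc * (d * a / q) * (55 / 64) ≤
      ∑ lab : V → Fin q, ((newOdd G blk S W lab).card : ℝ) := by
    rw [hswap]
    have h1 : ∑ x ∈ Wᶜ, Lc * (tau x / q - tau x ^ 2 / q ^ 2) ≤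
        ∑ x ∈ Wᶜ, ((Finset.univ.filter (fun lab : V → Fin q =>
          ∃ y ∈ S, G.Adj y x ∧ lab y = blk y x)).card : ℝ) :=
      Finset.sum_le_sum (fun x _ => hx x)
    have h2 : ∑ x ∈ Wᶜ, Lc * (tau x / q - tau x ^ 2 / q ^ 2) =
        Lc * ((∑ x ∈ Wᶜ, tau x) / q - (∑ x ∈ Wᶜ, tau x ^ 2) / q ^ 2) := by
      rw [← Finset.mul_sum, Finset.sum_sub_distrib, Finset.sum_div, Finset.sum_div]
    have h3 : (d : ℝ) * a / q * (55 / 64) ≤
        (∑ x ∈ Wᶜ, tau x) / q - (∑ x ∈ Wᶜ, tau x ^ 2) / q ^ 2 := by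
      -- the three error terms
      have t1 : 64 / (d : ℝ) * ∑ x, tau x ^ 2 ≤ d * a * (3 / 64) := by
        calc 64 / (d : ℝ) * ∑ x, tau x ^ 2 ≤ 64 / d * ((d : ℝ) ^ 2 * a * (3 / 4096)) :=
              mul_le_mul_of_nonneg_left hS2 (by positivity)
          _ = d * a * (3 / 64) := by
              field_simp
              ring
      have t2 : (d : ℝ) / 256 * (12 * a) = d * a * (3 / 64) := by ring
      have t3 : (∑ x ∈ Wᶜ, tau x ^ 2) / (q : ℝ) ^ 2 ≤ d * a / q * (3 / 64) := by
        rw [div_le_iff₀ (by positivity)]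
        calc ∑ x ∈ Wᶜ, tau x ^ 2 ≤ (d : ℝ) ^ 2 * a * (3 / 4096) := le_trans hC hS2
          _ = d * a * (3 / 4096) * d := by ring
          _ ≤ d * a * (3 / 4096) * (64 * q) :=
              mul_le_mul_of_nonneg_left hd64.le (by positivity)
          _ = d * a / q * (3 / 64) * (q : ℝ) ^ 2 := by
              field_simp
              ring
      have t4 : (∑ x ∈ Wᶜ, tau x) / (q : ℝ) = d * a / q - (∑ x ∈ W, tau x) / q := by
        rw [hA]
        ring
      have t5 : (∑ x ∈ W, tau x) / (q : ℝ) ≤ (d * a * (3 / 64) + d * a * (3 / 64)) / q := by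
        apply div_le_div_of_nonneg_right _ hqr.le
        linarith
      rw [t4]
      have e : ((d : ℝ) * a * (3 / 64) + d * a * (3 / 64)) / q = d * a / q * (6 / 64) := by
        ring
      rw [e] at t5
      linarith
    calc Lc * (d * a / q) * (55 / 64) = Lc * ((d : ℝ) * a / q * (55 / 64)) := by ring
      _ ≤ Lc * ((∑ x ∈ Wᶜ, tau x) / q - (∑ x ∈ Wᶜ, tau x ^ 2) / q ^ 2) :=
          mul_le_mul_of_nonneg_left h3 hLc0
      _ = ∑ x ∈ Wᶜ, Lc * (tau x / q - tau x ^ 2 / q ^ 2) := h2.symm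
      _ ≤ _ := h1
  -- pointwise upper bound
  have hup : ∀ lab : V → Fin q, (q : ℝ) * (newOdd G blk S W lab).card ≤ 2 * d * a := by
    intro lab
    have hsub : newOdd G blk S W lab ⊆
        S.biUnion (fun y => (G.neighborFinset y).filter (fun x => blk y x = lab y)) := by
      intro x hx'
      simp only [newOdd, Finset.mem_filter, Finset.mem_univ, true_and] at hx'
      obtain ⟨_, y, hy, hadj, hl⟩ := hx'
      rw [Finset.mem_biUnion]
      refine ⟨y, hy, ?_⟩
      rw [Finset.mem_filter, SimpleGraph.mem_neighborFinset]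
      exact ⟨hadj, hl.symm⟩
    have h1 : (newOdd G blk S W lab).card ≤
        ∑ y ∈ S, ((G.neighborFinset y).filter (fun x => blk y x = lab y)).card :=
      le_trans (Finset.card_le_card hsub) Finset.card_biUnion_le
    have h2 : q * (newOdd G blk S W lab).card ≤ 2 * d * S.card := by
      calc q * (newOdd G blk S W lab).card
          ≤ q * ∑ y ∈ S, ((G.neighborFinset y).filter (fun x => blk y x = lab y)).card :=
            Nat.mul_le_mul_left _ h1
        _ = ∑ y ∈ S, q * ((G.neighborFinset y).filter (fun x => blk y x = lab y)).card := by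
            rw [Finset.mul_sum]
        _ ≤ ∑ _y ∈ S, 2 * d := Finset.sum_le_sum (fun y _ => hblk y (lab y))
        _ = 2 * d * S.card := by
            rw [Finset.sum_const, smul_eq_mul]
            ring
    rw [ha]
    exact_mod_cast h2
  -- reverse Markov
  obtain ⟨Gc, hGc⟩ : ∃ Gc : ℝ, Gc = ((Finset.univ.filter (fun lab : V → Fin q =>
      4 * S.card ≤ (newOdd G blk S W lab).card)).card : ℝ) := ⟨_, rfl⟩
  have hGc0 : 0 ≤ Gc := by
    rw [hGc]
    positivity
  have hupsum : ∑ lab : V → Fin q, ((newOdd G blk S W lab).card : ℝ) ≤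
      Gc * (2 * d * a / q) + Lc * (4 * a) := by
    have h1 : ∀ lab : V → Fin q, ((newOdd G blk S W lab).card : ℝ) ≤
        (if 4 * S.card ≤ (newOdd G blk S W lab).card then 2 * d * a / q else 0) + 4 * a := by
      intro lab
      split_ifs with h
      · have h2 := hup lab
        have h3 : ((newOdd G blk S W lab).card : ℝ) ≤ 2 * d * a / q := by
          rw [le_div_iff₀ hqr]
          linarith
        linarith
      · push Not at h
        have h2 : ((newOdd G blk S W lab).card : ℝ) ≤ 4 * S.card := by exact_mod_cast h.le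
        rw [ha]
        linarith
    calc ∑ lab : V → Fin q, ((newOdd G blk S W lab).card : ℝ)
        ≤ ∑ lab : V → Fin q,
            ((if 4 * S.card ≤ (newOdd G blk S W lab).card then 2 * d * a / q else 0) + 4 * a) :=
          Finset.sum_le_sum (fun lab _ => h1 lab)
      _ = Gc * (2 * d * a / q) + Lc * (4 * a) := by
          rw [Finset.sum_add_distrib, ← Finset.sum_filter, Finset.sum_const, Finset.sum_const,
            Finset.card_univ, nsmul_eq_mul, nsmul_eq_mul, hGc, hLc]
  have hmain : Lc * (d * a / q) * (55 / 64) ≤ Gc * (2 * d * a / q) + Lc * (4 * a) :=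
    le_trans hlow hupsum
  have hmain2 : Lc * (d * a) * (55 / 64) ≤ Gc * (2 * d * a) + Lc * (4 * a) * q := by
    have h1 := mul_le_mul_of_nonneg_right hmain hqr.le
    have e1 : Lc * (d * a / q) * (55 / 64) * q = Lc * (d * a) * (55 / 64) := by
      field_simp
    have e2 : (Gc * (2 * d * a / q) + Lc * (4 * a)) * q =
        Gc * (2 * d * a) + Lc * (4 * a) * q := by
      field_simp
    rw [e1, e2] at h1
    exact h1
  have hq4 : Lc * (4 * a) * q ≤ Lc * (d * a) * (32 / 64) := by
    have h1 : (4 * a) * q ≤ (d * a) * (32 / 64) := by nlinarith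
    calc Lc * (4 * a) * q = Lc * ((4 * a) * q) := by ring
      _ ≤ Lc * ((d * a) * (32 / 64)) := mul_le_mul_of_nonneg_left h1 hLc0
      _ = Lc * (d * a) * (32 / 64) := by ring
  have hfinal : Lc ≤ 8 * Gc := by
    by_contra hcon
    push Not at hcon
    have hda : 0 < (d : ℝ) * a := by positivity
    have h1 : Gc * (2 * d * a) < Lc / 8 * (2 * d * a) := by
      apply mul_lt_mul_of_pos_right _ (by positivity)
      linarith
    have h2 : Lc * (d * a) * (23 / 64) ≤ Gc * (2 * d * a) := by linarith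
    have h3 : Lc / 8 * (2 * d * a) = Lc * (d * a) * (16 / 64) := by ring
    have h4 : 0 < Lc := by linarith
    have h5 : 0 < Lc * (d * a) := by positivity
    linarith
  rw [hLc, hGc] at hfinal
  exact_mod_cast hfinal

end Vale.Agent.Lib.P308
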