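import Vale.Agent.Lib.P308.Spectral

/-!
# Weighted counts of alternating walks and their spectral estimates

For a partner map `m`, `stepW φ y` is the sum of `φ (m x)` over the neighbours `x` of `y`:
one step `y - x - m x` of an alternating walk.  Iterating counts alternating walks with a
terminal weight.
-/

namespace Vale.Agent.Lib.P308

open Classical

variable {V : Type*} [Fintype V] (G : SimpleGraph V) [DecidableRel G.Adj] (m : V → V)

/-- one step of the alternating walk operator -/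
noncomputable def stepW (φ : V → ℝ) (y : V) : ℝ := ∑ x ∈ G.neighborFinset y, φ (m x)

/-- the iterated alternating walk operator -/
noncomputable def iterW (j : ℕ) (φ : V → ℝ) : V → ℝ := (stepW G m)^[j] φ

theorem iterW_zero (φ : V → ℝ) : iterW G m 0 φ = φ := rfl

theorem iterW_succ (j : ℕ) (φ : V → ℝ) : iterW G m (j + 1) φ = stepW G m (iterW G m j φ) :=
  Function.iterate_succ_apply' _ _ _

theorem iterW_add (i t : ℕ) (φ : V → ℝ) :
    iterW G m (i + t) φ = iterW G m i (iterW G m t φ) :=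
  Function.iterate_add_apply _ _ _ _

theorem stepW_mono {φ ψ : V → ℝ} (h : ∀ w, φ w ≤ ψ w) (y : V) :
    stepW G m φ y ≤ stepW G m ψ y :=
  Finset.sum_le_sum (fun x _ => h (m x))

theorem iterW_mono {φ ψ : V → ℝ} (h : ∀ w, φ w ≤ ψ w) :
    ∀ j y, iterW G m j φ y ≤ iterW G m j ψ y := by
  intro j
  induction j with
  | zero => exact h
  | succ j ih =>
    intro y
    rw [iterW_succ, iterW_succ]
    exact stepW_mono G m ih y

theorem iterW_nonneg {φ : V → ℝ} (h : ∀ w, 0 ≤ φ w) : ∀ j y, 0 ≤ iterW G m j φ y := by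
  intro j
  induction j with
  | zero => exact h
  | succ j ih =>
    intro y
    rw [iterW_succ]
    exact Finset.sum_nonneg (fun x _ => ih (m x))

theorem stepW_sum {ι : Type*} (s : Finset ι) (c : ι → ℝ) (φ : ι → V → ℝ) (y : V) :
    stepW G m (fun w => ∑ i ∈ s, c i * φ i w) y = ∑ i ∈ s, c i * stepW G m (φ i) y := by
  unfold stepW
  rw [Finset.sum_comm]
  apply Finset.sum_congr rfl
  intro i _
  rw [Finset.mul_sum]

theorem iterW_sum {ι : Type*} (s : Finset ι) (c : ι → ℝ) (φ : ι → V → ℝ) :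
    ∀ j y, iterW G m j (fun w => ∑ i ∈ s, c i * φ i w) y =
      ∑ i ∈ s, c i * iterW G m j (φ i) y := by
  intro j
  induction j with
  | zero => intro y; rfl
  | succ j ih =>
    intro y
    rw [iterW_succ]
    have e : iterW G m j (fun w => ∑ i ∈ s, c i * φ i w) =
        fun w => ∑ i ∈ s, c i * iterW G m j (φ i) w := funext ih
    rw [e, stepW_sum]
    apply Finset.sum_congr rfl
    intro i _
    rw [iterW_succ]

section regular

variable {d : ℕ} (hreg : G.IsRegularOfDegree d)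
include hreg

theorem stepW_const (c : ℝ) (y : V) : stepW G m (fun _ => c) y = d * c := by
  unfold stepW
  rw [Finset.sum_const, G.card_neighborFinset_eq_degree, hreg.degree_eq, nsmul_eq_mul]

theorem iterW_le_pow {φ : V → ℝ} {c : ℝ} (h : ∀ w, φ w ≤ c) :
    ∀ j y, iterW G m j φ y ≤ d ^ j * c := by
  intro j
  induction j with
  | zero =>
    intro y
    rw [iterW_zero, pow_zero, one_mul]
    exact h y
  | succ j ih =>
    intro y
    rw [iterW_succ]
    calc stepW G m (iterW G m j φ) y ≤ stepW G m (fun _ => (d : ℝ) ^ j * c) y :=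
          stepW_mono G m ih y
      _ = d * ((d : ℝ) ^ j * c) := stepW_const G m hreg _ y
      _ = (d : ℝ) ^ (j + 1) * c := by ring

theorem sum_stepW (hm : Function.Bijective m) (φ : V → ℝ) :
    ∑ y, stepW G m φ y = d * ∑ w, φ w := by
  unfold stepW
  rw [sum_nbr_sum G hreg (fun x => φ (m x)), hm.sum_comp φ]

theorem sum_iterW (hm : Function.Bijective m) (φ : V → ℝ) :
    ∀ j, ∑ y, iterW G m j φ y = (d : ℝ) ^ j * ∑ w, φ w := by
  intro j
  induction j with
  | zero => rw [iterW_zero, pow_zero, one_mul]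
  | succ j ih =>
    rw [iterW_succ, sum_stepW G m hreg hm, ih]
    ring

/-- the deviation from the mean contracts by `lam` at every step -/
theorem dev_iterW {lam : ℝ}
    (hspec : ∀ f : V → ℝ, ∑ x, f x = 0 →
      ∑ x, (∑ y ∈ G.neighborFinset x, f y) ^ 2 ≤ lam ^ 2 * ∑ x, f x ^ 2)
    (hm : Function.Bijective m) (φ : V → ℝ) (μ : ℝ)
    (hμ : ∑ w, φ w = Fintype.card V * μ) :
    ∀ j, ∑ y, (iterW G m j φ y - (d : ℝ) ^ j * μ) ^ 2 ≤
      (lam ^ j) ^ 2 * ∑ w, (φ w - μ) ^ 2 := by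
  intro j
  induction j with
  | zero =>
    rw [iterW_zero]
    simp
  | succ j ih =>
    obtain ⟨g, hg⟩ : ∃ g : V → ℝ, g = fun w => iterW G m j φ w - (d : ℝ) ^ j * μ := ⟨_, rfl⟩
    have hsum : ∑ w, g w = 0 := by
      rw [hg, Finset.sum_sub_distrib, sum_iterW G m hreg hm, hμ, Finset.sum_const,
        Finset.card_univ, nsmul_eq_mul]
      ring
    have hstep : ∀ y, iterW G m (j + 1) φ y - (d : ℝ) ^ (j + 1) * μ =
        ∑ x ∈ G.neighborFinset y, g (m x) := by
      intro y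
      rw [iterW_succ, hg]
      unfold stepW
      rw [Finset.sum_sub_distrib, Finset.sum_const, G.card_neighborFinset_eq_degree,
        hreg.degree_eq, nsmul_eq_mul]
      ring
    have h1 := hspec (fun x => g (m x)) (by rw [hm.sum_comp g]; exact hsum)
    have h2 : ∑ x, (g (m x)) ^ 2 = ∑ x, (g x) ^ 2 := hm.sum_comp (fun x => (g x) ^ 2)
    rw [h2] at h1
    have h3 : ∑ x, (g x) ^ 2 ≤ (lam ^ j) ^ 2 * ∑ w, (φ w - μ) ^ 2 := by
      rw [hg]
      exact ih
    calc ∑ y, (iterW G m (j + 1) φ y - (d : ℝ) ^ (j + 1) * μ) ^ 2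
        = ∑ y, (∑ x ∈ G.neighborFinset y, g (m x)) ^ 2 := by
          apply Finset.sum_congr rfl
          intro y _
          rw [hstep]
      _ ≤ lam ^ 2 * ∑ x, (g x) ^ 2 := h1
      _ ≤ lam ^ 2 * ((lam ^ j) ^ 2 * ∑ w, (φ w - μ) ^ 2) :=
          mul_le_mul_of_nonneg_left h3 (sq_nonneg _)
      _ = (lam ^ (j + 1)) ^ 2 * ∑ w, (φ w - μ) ^ 2 := by ring

/-- pointwise deviation bound -/
theorem iterW_dev_pointwise {lam : ℝ} (hlam : 0 ≤ lam)
    (hspec : ∀ f : V → ℝ, ∑ x, f x = 0 →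
      ∑ x, (∑ y ∈ G.neighborFinset x, f y) ^ 2 ≤ lam ^ 2 * ∑ x, f x ^ 2)
    (hm : Function.Bijective m) (φ : V → ℝ) (μ D : ℝ) (hD : 0 ≤ D)
    (hμ : ∑ w, φ w = Fintype.card V * μ) (hdev : ∑ w, (φ w - μ) ^ 2 ≤ D ^ 2) (j : ℕ) (y : V) :
    |iterW G m j φ y - (d : ℝ) ^ j * μ| ≤ lam ^ j * D := by
  have h1 := dev_iterW G m hreg hspec hm φ μ hμ j
  have h2 : (iterW G m j φ y - (d : ℝ) ^ j * μ) ^ 2 ≤
      ∑ y, (iterW G m j φ y - (d : ℝ) ^ j * μ) ^ 2 :=
    Finset.single_le_sum (f := fun y => (iterW G m j φ y - (d : ℝ) ^ j * μ) ^ 2)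
      (fun y _ => sq_nonneg _) (Finset.mem_univ y)
  have h3 : (iterW G m j φ y - (d : ℝ) ^ j * μ) ^ 2 ≤ (lam ^ j * D) ^ 2 := by
    calc (iterW G m j φ y - (d : ℝ) ^ j * μ) ^ 2
        ≤ (lam ^ j) ^ 2 * ∑ w, (φ w - μ) ^ 2 := le_trans h2 h1
      _ ≤ (lam ^ j) ^ 2 * D ^ 2 := mul_le_mul_of_nonneg_left hdev (sq_nonneg _)
      _ = (lam ^ j * D) ^ 2 := by ring
  exact abs_le_of_sq_le_sq h3 (mul_nonneg (pow_nonneg hlam j) hD)

end regular

/-- the indicator of the neighbourhood of `z` -/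
noncomputable def indN (z : V) (w : V) : ℝ := if G.Adj w z then 1 else 0

theorem indN_nonneg (z w : V) : 0 ≤ indN G z w := by
  unfold indN
  split_ifs <;> norm_num

theorem indN_le_one (z w : V) : indN G z w ≤ 1 := by
  unfold indN
  split_ifs <;> norm_num

theorem sum_indN {d : ℕ} (hreg : G.IsRegularOfDegree d) (z : V) : ∑ w, indN G z w = d := by
  unfold indN
  rw [Finset.sum_boole]
  have : (Finset.univ.filter (fun w => G.Adj w z)) = G.neighborFinset z := by
    ext w
    simp only [Finset.mem_filter, Finset.mem_univ, true_and, SimpleGraph.mem_neighborFinset]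
    exact ⟨fun h => h.symm, fun h => h.symm⟩
  rw [this, G.card_neighborFinset_eq_degree, hreg.degree_eq]

theorem dev_indN {d : ℕ} (hreg : G.IsRegularOfDegree d) (hN : 0 < Fintype.card V) (z : V) :
    ∑ w, (indN G z w - (d : ℝ) / Fintype.card V) ^ 2 ≤ (d : ℝ) := by
  have hNpos : (0 : ℝ) < Fintype.card V := by exact_mod_cast hN
  have e : ∀ w, (indN G z w - (d : ℝ) / Fintype.card V) ^ 2 =
      indN G z w - 2 * ((d : ℝ) / Fintype.card V) * indN G z w +
        ((d : ℝ) / Fintype.card V) ^ 2 := by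
    intro w
    unfold indN
    split_ifs <;> ring
  simp only [e]
  rw [Finset.sum_add_distrib, Finset.sum_sub_distrib, ← Finset.mul_sum, sum_indN G hreg,
    Finset.sum_const, Finset.card_univ, nsmul_eq_mul]
  have h1 : (Fintype.card V : ℝ) * ((d : ℝ) / Fintype.card V) ^ 2 =
      (d : ℝ) / Fintype.card V * d := by
    field_simp
  have h2 : 0 ≤ (d : ℝ) / Fintype.card V * d := by positivity
  linarith

end Vale.Agent.Lib.P308
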