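import Vale.Agent.Lib.P308.CountL
import Vale.Agent.Lib.P308.Walks

/-!
# A polynomial bound for all regular spectral expanders

In a `d`-regular graph on `n` vertices all of whose nontrivial adjacency eigenvalues are at
most `d / 64` in absolute value, the number of near-perfect matchings is at most `n ^ 20`
times the number of perfect matchings, whatever the degree `d`.
-/

namespace Vale.Agent.Lib.P308

open Classical

variable {V : Type*} [Fintype V] (G : SimpleGraph V) [DecidableRel G.Adj]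

/-- the double counting over matchings, sequences and labelings -/
theorem nearPerfect_mul_le {d : ℕ} (hd : 1 ≤ d) (hreg : G.IsRegularOfDegree d) {lam : ℝ}
    (hlam : 0 ≤ lam)
    (hspec : ∀ f : V → ℝ, ∑ x, f x = 0 →
      ∑ x, (∑ y ∈ G.neighborFinset x, f y) ^ 2 ≤ lam ^ 2 * ∑ x, f x ^ 2)
    (hgap : 64 * lam ≤ d) {q : ℕ} (hq0 : 0 < q) (hq8 : 8 * q ≤ d) (hq64 : d < 64 * q)
    (blk : V → V → Fin q)
    (hblk : ∀ y (b : Fin q),
      q * ((G.neighborFinset y).filter (fun x => blk y x = b)).card ≤ 2 * d)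
    (t : ℕ) (ht1 : ∀ i, i < t → 2048 * 2 ^ i ≤ Fintype.card V)
    (ht2 : Fintype.card V < 2048 * 2 ^ t) (ht3 : 9 * 2 ^ t ≤ Fintype.card V) :
    (nearPerfect G).ncard * q ^ (2 * t) ≤
      8 ^ (2 * t) * ((perfect G).ncard * (Fintype.card V * d ^ (2 * t + 1))) := by
  have hdeg : ∀ w : V, (G.neighborSet w).ncard ≤ d := by
    intro w
    rw [← Nat.card_coe_set_eq, Nat.card_eq_fintype_card, SimpleGraph.card_neighborSet_eq_degree,
      hreg.degree_eq]
  obtain ⟨NPf, hNPf⟩ : ∃ NPf : Finset (V → V),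
      NPf = Finset.univ.filter (fun f => f ∈ nearPerfect G) := ⟨_, rfl⟩
  have hNPc : (nearPerfect G).ncard = NPf.card := by
    rw [hNPf]
    exact ncard_eq_card_filter _
  have hNPmem : ∀ f, f ∈ NPf → f ∈ nearPerfect G := by
    intro f hf
    rw [hNPf, Finset.mem_filter] at hf
    exact hf.2
  obtain ⟨Om, hOm⟩ : ∃ Om : ℕ, Om = Fintype.card (Fin (2 * t + 2) → V → Fin q) := ⟨_, rfl⟩
  have hOmpos : 0 < Om := by
    rw [hOm]
    have : Nonempty (Fin (2 * t + 2) → V → Fin q) := ⟨fun _ _ => ⟨0, hq0⟩⟩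
    exact Fintype.card_pos
  obtain ⟨PL, hPL⟩ : ∃ PL : Finset ((V → V) × (Fin (2 * t + 2) → V → Fin q)),
      PL = (NPf ×ˢ Finset.univ).filter
        (fun p : (V → V) × (Fin (2 * t + 2) → V → Fin q) =>
          ∃ X, Aug G p.1 (2 * t + 1) X ∧ OpenPath p.1 blk t (lev t p.2) X) := ⟨_, rfl⟩
  have c1 : NPf.card * Om ≤ 8 ^ (2 * t) * PL.card := by
    have e : PL.card = ∑ m ∈ NPf, (Finset.univ.filter
        (fun l : Fin (2 * t + 2) → V → Fin q =>
          ∃ X, Aug G m (2 * t + 1) X ∧ OpenPath m blk t (lev t l) X)).card := by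
      rw [hPL, Finset.card_filter, Finset.sum_product]
      apply Finset.sum_congr rfl
      intro m _
      rw [Finset.card_filter]
    rw [e, Finset.mul_sum]
    calc NPf.card * Om = ∑ _m ∈ NPf, Om := by rw [Finset.sum_const, smul_eq_mul]
      _ ≤ _ := by
          apply Finset.sum_le_sum
          intro m hm
          rw [hOm]
          exact explore_prob G hd hreg hlam hspec hgap hq0 hq8 hq64 blk hblk t ht1 ht2 ht3
            (hNPmem m hm)
  obtain ⟨AA, hAA⟩ : ∃ AA : Finset ((V → V) × (Fin (2 * t + 1 + 2) → V)),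
      AA = Finset.univ.filter (fun p : (V → V) × (Fin (2 * t + 1 + 2) → V) =>
        p.1 ∈ nearPerfect G ∧ Aug G p.1 (2 * t + 1) (extX p.2)) := ⟨_, rfl⟩
  obtain ⟨PR, hPR⟩ : ∃ PR : Finset (((V → V) × (Fin (2 * t + 1 + 2) → V)) ×
      (Fin (2 * t + 2) → V → Fin q)),
      PR = (AA ×ˢ Finset.univ).filter
        (fun r : ((V → V) × (Fin (2 * t + 1 + 2) → V)) × (Fin (2 * t + 2) → V → Fin q) =>
          OpenPath r.1.1 blk t (lev t r.2) (extX r.1.2)) := ⟨_, rfl⟩
  have c2 : PL.card ≤ PR.card := by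
    apply Finset.card_le_card_of_surjOn
      (fun r : ((V → V) × (Fin (2 * t + 1 + 2) → V)) × (Fin (2 * t + 2) → V → Fin q) =>
        (r.1.1, r.2))
    intro p hp
    rw [Finset.mem_coe, hPL, Finset.mem_filter, Finset.mem_product] at hp
    obtain ⟨⟨hp1, _⟩, X, hX, hO⟩ := hp
    refine ⟨((p.1, fun j : Fin (2 * t + 1 + 2) => X j), p.2), ?_, rfl⟩
    rw [Finset.mem_coe, hPR, Finset.mem_filter, Finset.mem_product, hAA, Finset.mem_filter]
    refine ⟨⟨⟨Finset.mem_univ _, hNPmem _ hp1, ?_⟩, Finset.mem_univ _⟩, ?_⟩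
    · exact hX.congr (fun s hs => extX_res X s hs)
    · exact hO.congr (fun s hs => extX_res X s (by omega))
  have c3 : PR.card * q ^ (2 * t) = AA.card * Om := by
    have e : PR.card = ∑ a ∈ AA, (Finset.univ.filter
        (fun l : Fin (2 * t + 2) → V → Fin q =>
          OpenPath a.1 blk t (lev t l) (extX a.2))).card := by
      rw [hPR, Finset.card_filter, Finset.sum_product]
      apply Finset.sum_congr rfl
      intro a _
      rw [Finset.card_filter]
    rw [e, Finset.sum_mul,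
      Finset.sum_congr rfl (fun a _ => card_open a.1 blk t (extX a.2)), Finset.sum_const,
      smul_eq_mul, hOm]
  have c4 : AA.card ≤ (perfect G).ncard * (Fintype.card V * d ^ (2 * t + 1)) := by
    rw [hAA]
    exact card_aug_pairs G (by omega) hdeg (2 * t + 1)
  have hfin : NPf.card * q ^ (2 * t) * Om ≤
      8 ^ (2 * t) * ((perfect G).ncard * (Fintype.card V * d ^ (2 * t + 1))) * Om := by
    calc NPf.card * q ^ (2 * t) * Om = (NPf.card * Om) * q ^ (2 * t) := by ring
      _ ≤ (8 ^ (2 * t) * PL.card) * q ^ (2 * t) := Nat.mul_le_mul_right _ c1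
      _ ≤ (8 ^ (2 * t) * PR.card) * q ^ (2 * t) :=
          Nat.mul_le_mul_right _ (Nat.mul_le_mul_left _ c2)
      _ = 8 ^ (2 * t) * (PR.card * q ^ (2 * t)) := by ring
      _ = 8 ^ (2 * t) * (AA.card * Om) := by rw [c3]
      _ ≤ 8 ^ (2 * t) * (((perfect G).ncard * (Fintype.card V * d ^ (2 * t + 1))) * Om) :=
          Nat.mul_le_mul_left _ (Nat.mul_le_mul_right _ c4)
      _ = _ := by ring
  rw [hNPc]
  exact Nat.le_of_mul_le_mul_right hfin hOmpos

/-- a spectral gap forces the degree to be large -/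
theorem deg_ge_of_gap {d : ℕ} (hd : 1 ≤ d) (hreg : G.IsRegularOfDegree d) {lam : ℝ}
    (hlam : 0 ≤ lam)
    (hspec : ∀ f : V → ℝ, ∑ x, f x = 0 →
      ∑ x, (∑ y ∈ G.neighborFinset x, f y) ^ 2 ≤ lam ^ 2 * ∑ x, f x ^ 2)
    (hgap : 64 * lam ≤ d) (z : V) : 64 ≤ d := by
  have hNpos : 0 < Fintype.card V := Fintype.card_pos_iff.mpr ⟨z⟩
  have hdN : d < Fintype.card V := by
    have := G.degree_lt_card_verts z
    rwa [hreg.degree_eq] at this
  have hcen := centred_le G hreg hspec {z} hNpos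
  have e1 : ∀ x, ∑ y ∈ G.neighborFinset x, ind ({z} : Finset V) y = indN G z x := by
    intro x
    unfold ind indN
    simp only [Finset.mem_singleton]
    rw [Finset.sum_ite_eq']
    simp only [SimpleGraph.mem_neighborFinset]
  simp only [e1, Finset.card_singleton, Nat.cast_one, mul_one] at hcen
  obtain ⟨c, hc⟩ : ∃ c : ℝ, c = (d : ℝ) * (1 / Fintype.card V) := ⟨_, rfl⟩
  rw [← hc] at hcen
  have hNr : (0 : ℝ) < Fintype.card V := by exact_mod_cast hNpos
  have hNc : (Fintype.card V : ℝ) * c = d := by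
    rw [hc]
    field_simp
  have hc0 : 0 ≤ c := by
    rw [hc]
    positivity
  have hdr : (1 : ℝ) ≤ d := by exact_mod_cast hd
  have hdNr : (d : ℝ) + 1 ≤ Fintype.card V := by exact_mod_cast hdN
  have e : ∀ w, (indN G z w - c) ^ 2 = indN G z w - 2 * c * indN G z w + c ^ 2 := by
    intro w
    unfold indN
    split_ifs <;> ring
  simp only [e] at hcen
  rw [Finset.sum_add_distrib, Finset.sum_sub_distrib, ← Finset.mul_sum, sum_indN G hreg,
    Finset.sum_const, Finset.card_univ, nsmul_eq_mul] at hcen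
  have h0 : (Fintype.card V : ℝ) * c ^ 2 = c * d := by
    rw [← hNc]
    ring
  have hl : lam ^ 2 ≤ (d : ℝ) ^ 2 / 4096 := by
    have := pow_le_pow_left₀ (by positivity) hgap 2
    have e' : (64 * lam) ^ 2 = 4096 * lam ^ 2 := by ring
    rw [e'] at this
    linarith
  have h1 : (d : ℝ) * (1 - c) ≤ d * (d / 4096) := by
    have e' : (d : ℝ) * (d / 4096) = (d : ℝ) ^ 2 / 4096 := by ring
    rw [e']
    linarith
  have h3 : 1 - c ≤ (d : ℝ) / 4096 := le_of_mul_le_mul_left h1 (by linarith)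
  have h2 : c * ((d : ℝ) + 1) ≤ d := by
    calc c * ((d : ℝ) + 1) ≤ c * Fintype.card V := mul_le_mul_of_nonneg_left hdNr hc0
      _ = d := by rw [mul_comm, hNc]
  have h4 : 1 ≤ (1 - c) * ((d : ℝ) + 1) := by
    have e' : (1 - c) * ((d : ℝ) + 1) = ((d : ℝ) + 1) - c * ((d : ℝ) + 1) := by ring
    rw [e']
    linarith
  have h5 : (4096 : ℝ) ≤ d * (d + 1) := by
    have h6 : (1 - c) * ((d : ℝ) + 1) ≤ d / 4096 * ((d : ℝ) + 1) :=
      mul_le_mul_of_nonneg_right h3 (by linarith)
    have e' : (d : ℝ) / 4096 * ((d : ℝ) + 1) = d * (d + 1) / 4096 := by ring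
    rw [e'] at h6
    linarith
  by_contra hcon
  push Not at hcon
  have hd63 : (d : ℝ) ≤ 63 := by
    have : d ≤ 63 := by omega
    exact_mod_cast this
  nlinarith

/-- **All regular spectral expanders.** -/
theorem nearPerfect_le_poly {d : ℕ} (hd : 1 ≤ d) (hreg : G.IsRegularOfDegree d) {lam : ℝ}
    (hlam : 0 ≤ lam)
    (hspec : ∀ f : V → ℝ, ∑ x, f x = 0 →
      ∑ x, (∑ y ∈ G.neighborFinset x, f y) ^ 2 ≤ lam ^ 2 * ∑ x, f x ^ 2)
    (hgap : 64 * lam ≤ d) :
    (nearPerfect G).ncard ≤ Fintype.card V ^ 20 * (perfect G).ncard := by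
  rcases Set.eq_empty_or_nonempty (nearPerfect G) with h0 | ⟨m0, hm0⟩
  · rw [h0]
    simp
  obtain ⟨u, v, huv, hset⟩ := Set.ncard_eq_two.mp hm0.2
  have hd64 : 64 ≤ d := deg_ge_of_gap G hd hreg hlam hspec hgap u
  have hdN : d < Fintype.card V := by
    have := G.degree_lt_card_verts u
    rwa [hreg.degree_eq] at this
  have hdeg : ∀ w : V, (G.neighborSet w).ncard ≤ d := by
    intro w
    rw [← Nat.card_coe_set_eq, Nat.card_eq_fintype_card, SimpleGraph.card_neighborSet_eq_degree,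
      hreg.degree_eq]
  obtain ⟨q, hq⟩ : ∃ q : ℕ, q = d / 32 := ⟨_, rfl⟩
  have hq0 : 0 < q := by omega
  have hq8 : 8 * q ≤ d := by omega
  have hq32 : 32 * q ≤ d := by omega
  have hq64 : d < 64 * q := by omega
  -- the blocks
  have hidx : ∀ w, ∃ f : V → Fin d, ∀ y y', G.Adj w y → G.Adj w y' → f y = f y' → y = y' :=
    fun w => exists_index_fin G d (by omega) w (hdeg w)
  choose idx hidxinj using hidx
  have hlt : ∀ w y : V, ((idx w y : Fin d) : ℕ) / 64 < q := by
    intro w y
    have := (idx w y).isLt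
    omega
  obtain ⟨blk, hblkdef⟩ : ∃ blk : V → V → Fin q,
      ∀ w y, ((blk w y : Fin q) : ℕ) = ((idx w y : Fin d) : ℕ) / 64 :=
    ⟨fun w y => ⟨((idx w y : Fin d) : ℕ) / 64, hlt w y⟩, fun w y => rfl⟩
  have hblk : ∀ y (b : Fin q),
      q * ((G.neighborFinset y).filter (fun x => blk y x = b)).card ≤ 2 * d := by
    intro y b
    have hc : ((G.neighborFinset y).filter (fun x => blk y x = b)).card ≤
        (Finset.range 64).card := by
      apply Finset.card_le_card_of_injOn (fun x => ((idx y x : Fin d) : ℕ) % 64)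
      · intro x _
        rw [Finset.coe_range]
        exact Nat.mod_lt _ (by norm_num)
      · intro x hx x' hx' hh
        rw [Finset.mem_coe, Finset.mem_filter, SimpleGraph.mem_neighborFinset] at hx hx'
        have h1 := congrArg Fin.val hx.2
        have h2 := congrArg Fin.val hx'.2
        rw [hblkdef] at h1 h2
        have h3 : ((idx y x : Fin d) : ℕ) = ((idx y x' : Fin d) : ℕ) := by
          have hh' : ((idx y x : Fin d) : ℕ) % 64 = ((idx y x' : Fin d) : ℕ) % 64 := hh
          omega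
        exact hidxinj y x x' hx.1 hx'.1 (Fin.ext h3)
    rw [Finset.card_range] at hc
    calc q * ((G.neighborFinset y).filter (fun x => blk y x = b)).card ≤ q * 64 :=
          Nat.mul_le_mul_left _ hc
      _ ≤ 2 * d := by omega
  -- the number of levels
  obtain ⟨t, ht⟩ : ∃ t : ℕ, t = Nat.log 2 (Fintype.card V / 1024) := ⟨_, rfl⟩
  have hlog1 : Fintype.card V / 1024 ≠ 0 → 2 ^ t ≤ Fintype.card V / 1024 := by
    intro h
    rw [ht]
    exact Nat.pow_log_le_self 2 h
  have hlog2 : Fintype.card V / 1024 < 2 * 2 ^ t := by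
    have := Nat.lt_pow_succ_log_self (by norm_num : 1 < 2) (Fintype.card V / 1024)
    rw [← ht, Nat.succ_eq_add_one, pow_succ] at this
    omega
  have hlog0 : Fintype.card V / 1024 = 0 → t = 0 := by
    intro h
    rw [ht, h, Nat.log_zero_right]
  have ht1 : ∀ i, i < t → 2048 * 2 ^ i ≤ Fintype.card V := by
    intro i hi
    have h1 : Fintype.card V / 1024 ≠ 0 := by
      intro h
      have := hlog0 h
      omega
    have h2 := hlog1 h1
    have h3 : 2 ^ (i + 1) ≤ 2 ^ t := Nat.pow_le_pow_right (by norm_num) (by omega)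
    rw [pow_succ] at h3
    omega
  have ht2 : Fintype.card V < 2048 * 2 ^ t := by omega
  have ht3 : 9 * 2 ^ t ≤ Fintype.card V := by
    by_cases h : Fintype.card V / 1024 = 0
    · rw [hlog0 h]
      simp only [pow_zero]
      omega
    · have := hlog1 h
      omega
  have h2t : 2 ^ t ≤ Fintype.card V := by
    by_cases h : Fintype.card V / 1024 = 0
    · rw [hlog0 h]
      simp only [pow_zero]
      omega
    · have := hlog1 h
      omega
  have core := nearPerfect_mul_le G hd hreg hlam hspec hgap hq0 hq8 hq64 blk hblk t ht1 ht2 ht3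
  have hdpow : d ^ (2 * t + 1) ≤ 64 ^ (2 * t) * q ^ (2 * t) * d := by
    rw [pow_succ, ← mul_pow]
    exact Nat.mul_le_mul_right _ (Nat.pow_le_pow_left hq64.le _)
  have h512 : (8 : ℕ) ^ (2 * t) * 64 ^ (2 * t) = (2 ^ t) ^ 18 := by
    rw [← mul_pow, show (8 : ℕ) * 64 = 2 ^ 9 by norm_num, ← pow_mul, ← pow_mul]
    congr 1
    ring
  have hq2t : 0 < q ^ (2 * t) := Nat.pos_of_ne_zero (by positivity)
  have h1 : (nearPerfect G).ncard * q ^ (2 * t) ≤
      ((2 ^ t) ^ 18 * (Fintype.card V * d) * (perfect G).ncard) * q ^ (2 * t) := by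
    calc (nearPerfect G).ncard * q ^ (2 * t)
        ≤ 8 ^ (2 * t) * ((perfect G).ncard * (Fintype.card V * d ^ (2 * t + 1))) := core
      _ ≤ 8 ^ (2 * t) * ((perfect G).ncard *
            (Fintype.card V * (64 ^ (2 * t) * q ^ (2 * t) * d))) :=
          Nat.mul_le_mul_left _ (Nat.mul_le_mul_left _ (Nat.mul_le_mul_left _ hdpow))
      _ = (8 ^ (2 * t) * 64 ^ (2 * t)) * (Fintype.card V * d) * (perfect G).ncard *
            q ^ (2 * t) := by ring
      _ = _ := by rw [h512]
  have h2 := Nat.le_of_mul_le_mul_right h1 hq2t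
  calc (nearPerfect G).ncard ≤ (2 ^ t) ^ 18 * (Fintype.card V * d) * (perfect G).ncard := h2
    _ ≤ Fintype.card V ^ 18 * (Fintype.card V * Fintype.card V) * (perfect G).ncard := by
        apply Nat.mul_le_mul_right
        apply Nat.mul_le_mul (Nat.pow_le_pow_left h2t 18)
        exact Nat.mul_le_mul_left _ hdN.le
    _ = Fintype.card V ^ 20 * (perfect G).ncard := by ring

end Vale.Agent.Lib.P308
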