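import Vale.Agent.Lib.P308.Count

namespace Vale.Agent.Lib.P308

open Classical

variable {V : Type*} [Fintype V] (G : SimpleGraph V) [DecidableRel G.Adj]

/-- double counting in a regular graph -/
theorem sum_nbr_sum {d : ℕ} (hreg : G.IsRegularOfDegree d) (f : V → ℝ) :
    ∑ x, ∑ y ∈ G.neighborFinset x, f y = d * ∑ y, f y := by
  rw [Finset.sum_comm' (s' := fun y => G.neighborFinset y) (t' := Finset.univ) (by
    intro x y
    simp only [Finset.mem_univ, true_and, and_true, SimpleGraph.mem_neighborFinset]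
    exact ⟨fun h => h.symm, fun h => h.symm⟩)]
  rw [Finset.mul_sum]
  apply Finset.sum_congr rfl
  intro y _
  rw [Finset.sum_const, G.card_neighborFinset_eq_degree, hreg.degree_eq, nsmul_eq_mul]

/-- the indicator function of a finite set of vertices -/
noncomputable def ind (S : Finset V) (y : V) : ℝ := if y ∈ S then 1 else 0

theorem sum_ind (S : Finset V) : ∑ y, ind S y = S.card := by
  simp only [ind]
  rw [Finset.sum_boole]
  congr 2
  ext y
  simp

omit [Fintype V] in
theorem ind_sq (S : Finset V) (y : V) : ind S y ^ 2 = ind S y := by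
  unfold ind
  split_ifs <;> norm_num

/-- the centred quadratic form of an indicator is at most `lam ^ 2 * |S|` -/
theorem centred_le {d : ℕ} (hreg : G.IsRegularOfDegree d) {lam : ℝ}
    (hspec : ∀ f : V → ℝ, ∑ x, f x = 0 →
      ∑ x, (∑ y ∈ G.neighborFinset x, f y) ^ 2 ≤ lam ^ 2 * ∑ x, f x ^ 2)
    (S : Finset V) (hN : 0 < Fintype.card V) :
    ∑ x, ((∑ y ∈ G.neighborFinset x, ind S y) - d * ((S.card : ℝ) / Fintype.card V)) ^ 2
      ≤ lam ^ 2 * S.card := by
  set c : ℝ := (S.card : ℝ) / Fintype.card V with hc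
  have hNpos : (0 : ℝ) < Fintype.card V := by exact_mod_cast hN
  have hsum : ∑ x, (ind S x - c) = 0 := by
    rw [Finset.sum_sub_distrib, sum_ind, Finset.sum_const, Finset.card_univ, nsmul_eq_mul, hc]
    field_simp
    ring
  have hsq : ∑ x, (ind S x - c) ^ 2 ≤ S.card := by
    have e : ∀ x, (ind S x - c) ^ 2 = ind S x - 2 * c * ind S x + c ^ 2 := by
      intro x
      have := ind_sq S x
      nlinarith
    simp only [e]
    rw [Finset.sum_add_distrib, Finset.sum_sub_distrib, ← Finset.mul_sum, sum_ind,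
      Finset.sum_const, Finset.card_univ, nsmul_eq_mul]
    have h1 : (Fintype.card V : ℝ) * c ^ 2 = c * S.card := by
      rw [hc]
      field_simp
    have h2 : 0 ≤ c * S.card := by
      rw [hc]
      positivity
    linarith
  have h := hspec (fun x => ind S x - c) hsum
  have hA : ∀ x, ∑ y ∈ G.neighborFinset x, (ind S y - c) =
      (∑ y ∈ G.neighborFinset x, ind S y) - d * c := by
    intro x
    rw [Finset.sum_sub_distrib, Finset.sum_const, G.card_neighborFinset_eq_degree,
      hreg.degree_eq, nsmul_eq_mul]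
  simp only [hA] at h
  calc _ ≤ lam ^ 2 * ∑ x, (ind S x - c) ^ 2 := h
    _ ≤ lam ^ 2 * S.card := mul_le_mul_of_nonneg_left hsq (sq_nonneg _)

/-- sets with `8 g |S| ≤ n` expand: Tanner-type bound from the spectral hypothesis -/
theorem expand_of_spectral {d : ℕ} (hd : 1 ≤ d) (hreg : G.IsRegularOfDegree d) {lam : ℝ}
    (hlam : 0 ≤ lam)
    (hspec : ∀ f : V → ℝ, ∑ x, f x = 0 →
      ∑ x, (∑ y ∈ G.neighborFinset x, f y) ^ 2 ≤ lam ^ 2 * ∑ x, f x ^ 2)
    {g : ℕ} (hg : 1 ≤ g) (hgap : 8 * (g : ℝ) * lam ≤ d) (S : Finset V)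
    (hS : 8 * g * S.card ≤ Fintype.card V) :
    4 * g * S.card ≤ (bdry G S).card + S.card := by
  rcases Nat.eq_zero_or_pos S.card with h0 | hpos
  · rw [h0]
    simp
  have hN : 0 < Fintype.card V := by
    have : 1 ≤ g * S.card := Nat.mul_pos hg hpos
    have e : 8 * g * S.card = 8 * (g * S.card) := by ring
    omega
  by_contra hcon
  push Not at hcon
  -- the set of vertices with a neighbour in S
  obtain ⟨Nb, hNb⟩ : ∃ Nb : Finset V, Nb = Finset.univ.filter (fun x => ∃ y ∈ S, G.Adj x y) :=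
    ⟨_, rfl⟩
  have hNb_sub : Nb ⊆ bdry G S ∪ S := by
    intro x hx
    rw [hNb, Finset.mem_filter] at hx
    obtain ⟨y, hy, hxy⟩ := hx.2
    by_cases hxS : x ∈ S
    · exact Finset.mem_union_right _ hxS
    · exact Finset.mem_union_left _ (mem_bdry.mpr ⟨hxS, y, hy, hxy.symm⟩)
  have hNb_card : Nb.card ≤ (bdry G S).card + S.card :=
    le_trans (Finset.card_le_card hNb_sub) (Finset.card_union_le _ _)
  obtain ⟨a, ha⟩ : ∃ a : V → ℝ, a = fun x => ∑ y ∈ G.neighborFinset x, ind S y := ⟨_, rfl⟩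
  have h_supp : ∀ x, x ∉ Nb → a x = 0 := by
    intro x hx
    rw [ha]
    apply Finset.sum_eq_zero
    intro y hy
    have hxy : G.Adj x y := (G.mem_neighborFinset x y).mp hy
    have hyS : y ∉ S := by
      intro hyS
      apply hx
      rw [hNb, Finset.mem_filter]
      exact ⟨Finset.mem_univ _, y, hyS, hxy⟩
    simp only [ind, hyS, if_false]
  have h_total : ∑ x, a x = d * S.card := by
    rw [ha]
    rw [sum_nbr_sum G hreg, sum_ind]
  have h_sumNb : ∑ x ∈ Nb, a x = d * S.card := by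
    rw [← h_total]
    exact Finset.sum_subset (Finset.subset_univ Nb) (fun x _ hx => h_supp x hx)
  have hCS : (∑ x ∈ Nb, a x) ^ 2 ≤ Nb.card * ∑ x ∈ Nb, a x ^ 2 := sq_sum_le_card_mul_sum_sq
  have hle : ∑ x ∈ Nb, a x ^ 2 ≤ ∑ x, a x ^ 2 :=
    Finset.sum_le_univ_sum_of_nonneg (fun x => sq_nonneg _)
  set c : ℝ := (S.card : ℝ) / Fintype.card V with hc
  have hNpos : (0 : ℝ) < Fintype.card V := by exact_mod_cast hN
  have hcen := centred_le G hreg hspec S hN
  rw [← hc] at hcen
  have hcen' : ∑ x, (a x - d * c) ^ 2 ≤ lam ^ 2 * S.card := by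
    rw [ha]
    exact hcen
  have hQ : ∑ x, a x ^ 2 = ∑ x, (a x - d * c) ^ 2 + Fintype.card V * (d * c) ^ 2 := by
    have e : ∀ x, a x ^ 2 = (a x - d * c) ^ 2 + 2 * (d * c) * a x - (d * c) ^ 2 := by
      intro x
      ring
    simp only [e]
    rw [Finset.sum_sub_distrib, Finset.sum_add_distrib, ← Finset.mul_sum, h_total,
      Finset.sum_const, Finset.card_univ, nsmul_eq_mul]
    have h1 : (Fintype.card V : ℝ) * c = S.card := by
      rw [hc]
      field_simp
    have h2 : (Fintype.card V : ℝ) * (d * c) ^ 2 = d * c * (d * S.card) := by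
      rw [← h1]
      ring
    linarith
  -- real-number bookkeeping
  have hB : (Nb.card : ℝ) ≤ 4 * g * S.card := by
    have : Nb.card ≤ 4 * g * S.card := by omega
    exact_mod_cast this
  have hs1 : (1 : ℝ) ≤ S.card := by exact_mod_cast hpos
  have hd1 : (1 : ℝ) ≤ d := by exact_mod_cast hd
  have hg1 : (1 : ℝ) ≤ g := by exact_mod_cast hg
  have hSr : 8 * (g : ℝ) * S.card ≤ Fintype.card V := by exact_mod_cast hS
  have hNc : (Fintype.card V : ℝ) * c = S.card := by
    rw [hc]
    field_simp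
  have hc0 : 0 ≤ c := by
    rw [hc]
    positivity
  have hmain : ((d : ℝ) * S.card) ^ 2 ≤
      4 * g * S.card * (lam ^ 2 * S.card + Fintype.card V * (d * c) ^ 2) := by
    calc ((d : ℝ) * S.card) ^ 2 = (∑ x ∈ Nb, a x) ^ 2 := by rw [h_sumNb]
      _ ≤ Nb.card * ∑ x ∈ Nb, a x ^ 2 := hCS
      _ ≤ Nb.card * ∑ x, a x ^ 2 := mul_le_mul_of_nonneg_left hle (Nat.cast_nonneg _)
      _ ≤ Nb.card * (lam ^ 2 * S.card + Fintype.card V * (d * c) ^ 2) := by
          apply mul_le_mul_of_nonneg_left _ (Nat.cast_nonneg _)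
          rw [hQ]
          linarith
      _ ≤ 4 * g * S.card * (lam ^ 2 * S.card + Fintype.card V * (d * c) ^ 2) := by
          apply mul_le_mul_of_nonneg_right hB
          positivity
  -- first error term: 4 g s * n (d c)^2 = 4 g s * d^2 s c ≤ d^2 s^2 / 2
  have hT1 : 4 * (g : ℝ) * S.card * (Fintype.card V * (d * c) ^ 2) ≤ ((d : ℝ) * S.card) ^ 2 / 2 := by
    have e1 : (Fintype.card V : ℝ) * (d * c) ^ 2 = (d : ℝ) ^ 2 * S.card * c := by
      rw [← hNc]
      ring
    rw [e1]
    have e2 : 8 * (g : ℝ) * S.card * c ≤ S.card := by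
      calc 8 * (g : ℝ) * S.card * c ≤ Fintype.card V * c :=
            mul_le_mul_of_nonneg_right hSr hc0
        _ = S.card := hNc
    have e3 : 0 ≤ (d : ℝ) ^ 2 * S.card := by positivity
    nlinarith [mul_le_mul_of_nonneg_left e2 e3]
  -- second error term: 4 g lam^2 s^2 ≤ d^2 s^2 / 16
  have hT2 : 4 * (g : ℝ) * S.card * (lam ^ 2 * S.card) ≤ ((d : ℝ) * S.card) ^ 2 / 16 := by
    have e1 : (8 * (g : ℝ) * lam) ^ 2 ≤ (d : ℝ) ^ 2 :=
      pow_le_pow_left₀ (by positivity) hgap 2
    have e2 : 64 * (g : ℝ) * lam ^ 2 ≤ (d : ℝ) ^ 2 := by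
      have : 0 ≤ (g : ℝ) * lam ^ 2 * ((g : ℝ) - 1) := by
        apply mul_nonneg (by positivity)
        linarith
      nlinarith
    have e3 : 0 ≤ (S.card : ℝ) ^ 2 := by positivity
    nlinarith [mul_le_mul_of_nonneg_right e2 e3]
  have hpos2 : 0 < ((d : ℝ) * S.card) ^ 2 := by positivity
  have hexp : 4 * (g : ℝ) * S.card * (lam ^ 2 * S.card + Fintype.card V * (d * c) ^ 2) =
      4 * (g : ℝ) * S.card * (lam ^ 2 * S.card) +
        4 * (g : ℝ) * S.card * (Fintype.card V * (d * c) ^ 2) := by ring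
  linarith

/-- two equal-size sets with no edge between them are small -/
theorem join_of_spectral {d : ℕ} (hreg : G.IsRegularOfDegree d) {lam : ℝ} (hlam : 0 ≤ lam)
    (hspec : ∀ f : V → ℝ, ∑ x, f x = 0 →
      ∑ x, (∑ y ∈ G.neighborFinset x, f y) ^ 2 ≤ lam ^ 2 * ∑ x, f x ^ 2)
    (S T : Finset V) {a : ℕ} (ha : 1 ≤ a) (hS : S.card = a) (hT : T.card = a)
    (hno : ∀ x ∈ S, ∀ y ∈ T, ¬ G.Adj x y) :
    (a : ℝ) * d ≤ lam * Fintype.card V := by
  have hN : 0 < Fintype.card V := by
    have hne : S.Nonempty := by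
      rw [← Finset.card_pos]
      omega
    obtain ⟨x, _⟩ := hne
    exact Fintype.card_pos_iff.mpr ⟨x⟩
  have hNpos : (0 : ℝ) < Fintype.card V := by exact_mod_cast hN
  have hcen := centred_le G hreg hspec T hN
  rw [hT] at hcen
  set c : ℝ := (a : ℝ) / Fintype.card V with hc
  have hc0 : 0 ≤ c := by
    rw [hc]
    positivity
  have hz : ∀ x ∈ S, ∑ y ∈ G.neighborFinset x, ind T y = 0 := by
    intro x hx
    apply Finset.sum_eq_zero
    intro y hy
    have hxy : G.Adj x y := (G.mem_neighborFinset x y).mp hy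
    have hyT : y ∉ T := fun hyT => hno x hx y hyT hxy
    simp only [ind, hyT, if_false]
  have hlow : (a : ℝ) * (d * c) ^ 2 ≤
      ∑ x, ((∑ y ∈ G.neighborFinset x, ind T y) - d * c) ^ 2 := by
    have h1 : ∑ x ∈ S, ((∑ y ∈ G.neighborFinset x, ind T y) - d * c) ^ 2 = a * (d * c) ^ 2 := by
      have h0 : ∀ x ∈ S, ((∑ y ∈ G.neighborFinset x, ind T y) - d * c) ^ 2 = (d * c) ^ 2 := by
        intro x hx
        rw [hz x hx]
        ring
      rw [Finset.sum_congr rfl h0, Finset.sum_const, hS, nsmul_eq_mul]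
    rw [← h1]
    exact Finset.sum_le_univ_sum_of_nonneg (fun x => sq_nonneg _)
  have ha1 : (1 : ℝ) ≤ a := by exact_mod_cast ha
  have hsq : (d * c) ^ 2 ≤ lam ^ 2 := by
    have h2 : (a : ℝ) * (d * c) ^ 2 ≤ a * lam ^ 2 := by
      calc (a : ℝ) * (d * c) ^ 2 ≤ lam ^ 2 * a := le_trans hlow hcen
        _ = a * lam ^ 2 := by ring
    exact le_of_mul_le_mul_left h2 (by linarith)
  have hdc : (d : ℝ) * c ≤ lam := by
    by_contra hlt
    push Not at hlt
    have := pow_lt_pow_left₀ hlt hlam (by norm_num : (2 : ℕ) ≠ 0)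
    linarith
  have e : (a : ℝ) * d = (d * c) * Fintype.card V := by
    rw [hc]
    field_simp
  rw [e]
  exact mul_le_mul_of_nonneg_right hdc hNpos.le

/-- **Regular spectral expanders.** -/
theorem nearPerfect_le_of_spectral {d g : ℕ} (hd : 1 ≤ d) (hg : 2 ≤ g)
    (hreg : G.IsRegularOfDegree d) {lam : ℝ} (hlam : 0 ≤ lam)
    (hspec : ∀ f : V → ℝ, ∑ x, f x = 0 →
      ∑ x, (∑ y ∈ G.neighborFinset x, f y) ^ 2 ≤ lam ^ 2 * ∑ x, f x ^ 2)
    (hgap : 8 * (g : ℝ) * lam ≤ d) :
    (nearPerfect G).ncard ≤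
      Nat.card V * (d + 1) ^ (2 * Nat.log g (Nat.card V)) * (perfect G).ncard := by
  have hdeg : ∀ w : V, (G.neighborSet w).ncard ≤ d := by
    intro w
    rw [← Nat.card_coe_set_eq, Nat.card_eq_fintype_card, SimpleGraph.card_neighborSet_eq_degree,
      hreg.degree_eq]
  have hd1 : (1 : ℝ) ≤ d := by exact_mod_cast hd
  have hg0 : (0 : ℝ) < g := by
    have : 0 < g := by omega
    exact_mod_cast this
  rw [Nat.card_eq_fintype_card]
  -- it suffices to produce a suitable depth t
  suffices hex : ∃ t, t ≤ Nat.log g (Fintype.card V) ∧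
      (∀ S : Finset V, S.card * g ≤ g ^ t → 4 * g * S.card ≤ (bdry G S).card + S.card) ∧
      (∀ S T : Finset V, S.card = g ^ t → T.card = g ^ t → Disjoint S T →
        ∃ x ∈ S, ∃ y ∈ T, G.Adj x y) by
    obtain ⟨t, ht, E1, E2⟩ := hex
    have h := nearPerfect_le_of_expansion G d g t (by omega) hdeg E1 E2
    rw [Nat.card_eq_fintype_card] at h
    refine le_trans h ?_
    apply Nat.mul_le_mul_right
    apply Nat.mul_le_mul_left
    exact Nat.pow_le_pow_right (by omega) (by omega)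
  have hjoin : ∀ t : ℕ, Fintype.card V < 8 * g ^ (t + 1) →
      ∀ S T : Finset V, S.card = g ^ t → T.card = g ^ t → Disjoint S T →
        ∃ x ∈ S, ∃ y ∈ T, G.Adj x y := by
    intro t ht S T hS hT _
    by_contra hcon
    push Not at hcon
    have hpos : 1 ≤ g ^ t := Nat.one_le_pow _ _ (by omega)
    have h1 := join_of_spectral G hreg hlam hspec S T hpos hS hT hcon
    have h2 : ((Fintype.card V : ℝ) + 1) ≤ 8 * (g : ℝ) ^ (t + 1) := by
      have : Fintype.card V + 1 ≤ 8 * g ^ (t + 1) := by omega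
      exact_mod_cast this
    have hgt : (1 : ℝ) ≤ ((g ^ t : ℕ) : ℝ) := by exact_mod_cast hpos
    have e : ((g ^ t : ℕ) : ℝ) = (g : ℝ) ^ t := by push_cast; ring
    rw [e] at h1 hgt
    -- lam * (n + 1) ≤ lam * 8 g^(t+1) = (8 g lam) g^t ≤ d g^t ≤ lam * n
    have h3 : lam * ((Fintype.card V : ℝ) + 1) ≤ lam * (8 * (g : ℝ) ^ (t + 1)) :=
      mul_le_mul_of_nonneg_left h2 hlam
    have h4 : lam * (8 * (g : ℝ) ^ (t + 1)) = (8 * (g : ℝ) * lam) * (g : ℝ) ^ t := by ring
    have h5 : (8 * (g : ℝ) * lam) * (g : ℝ) ^ t ≤ d * (g : ℝ) ^ t :=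
      mul_le_mul_of_nonneg_right hgap (by positivity)
    have h6 : lam ≤ 0 := by nlinarith
    have h7 : lam = 0 := le_antisymm h6 hlam
    rw [h7] at h1
    nlinarith
  by_cases hN : Fintype.card V < 8 * g
  · refine ⟨0, Nat.zero_le _, ?_, ?_⟩
    · intro S hS
      have : S.card = 0 := by
        rw [pow_zero] at hS
        rcases Nat.eq_zero_or_pos S.card with h0 | h0
        · exact h0
        · have : 2 ≤ S.card * g := by
            calc 2 ≤ g := hg
              _ = 1 * g := (one_mul g).symm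
              _ ≤ S.card * g := Nat.mul_le_mul_right g h0
          omega
      rw [this]
      simp
    · exact hjoin 0 (by rw [zero_add, pow_one]; exact hN)
  · push Not at hN
    have h8 : Fintype.card V / 8 ≠ 0 := by
      have : g ≤ Fintype.card V / 8 := by
        rw [Nat.le_div_iff_mul_le (by norm_num)]
        omega
      omega
    have hlow := Nat.pow_log_le_self g h8
    have hhigh : Fintype.card V / 8 < g ^ (Nat.log g (Fintype.card V / 8) + 1) :=
      Nat.lt_pow_succ_log_self (by omega : 1 < g) (Fintype.card V / 8)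
    refine ⟨Nat.log g (Fintype.card V / 8), Nat.log_mono_right (Nat.div_le_self _ _), ?_, ?_⟩
    · intro S hS
      apply expand_of_spectral G hd hreg hlam hspec (by omega) hgap S
      have h1 : 8 * g ^ Nat.log g (Fintype.card V / 8) ≤ Fintype.card V := by
        have := Nat.mul_le_mul_left 8 hlow
        have h2 := Nat.mul_div_le (Fintype.card V) 8
        omega
      have h2 : 8 * g * S.card = 8 * (S.card * g) := by ring
      omega
    · apply hjoin
      have := (Nat.div_lt_iff_lt_mul (by norm_num : 0 < 8)).mp hhigh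
      omega

end Vale.Agent.Lib.P308
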