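import Vale.Agent.Lib.P308.Core

/-!
# Alternating trees and short augmenting sequences in vertex expanders

Two alternating trees are grown from the two uncovered vertices of a near-perfect matching.
Vertex expansion lets both trees multiply their size by `g` at every level, and as soon as
the two trees are joined by an edge, an augmenting sequence of length at most the sum of the
two depths is read off.
-/

namespace Vale.Agent.Lib.P308

open Classical

variable {V : Type*}

/-- An alternating tree with root `r`: `E` is its set of even (outer) vertices, every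
non-root `x ∈ E` is matched to the odd vertex `m x`, which is adjacent to the even vertex
`par x` of smaller level. -/
structure AltTree (G : SimpleGraph V) (m : V → V) (r : V) (E : Finset V) (par : V → V)
    (lev : V → ℕ) (h : ℕ) : Prop where
  root_mem : r ∈ E
  nfix : ∀ x ∈ E, x ≠ r → m x ≠ x
  par_mem : ∀ x ∈ E, x ≠ r → par x ∈ E
  par_lev : ∀ x ∈ E, x ≠ r → lev (par x) < lev x
  par_adj : ∀ x ∈ E, x ≠ r → G.Adj (par x) (m x)
  odd_not : ∀ x ∈ E, m x ∈ E → x = r
  lev_le : ∀ x ∈ E, lev x ≤ h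

/-- the vertex sets of two trees with even sets `Eu`, `Ev` are disjoint -/
def Cross (m : V → V) (Eu Ev : Finset V) : Prop :=
  ∀ a ∈ Eu, ∀ b ∈ Ev, a ≠ b ∧ m a ≠ b

section chain

variable {G : SimpleGraph V} {m : V → V} {r : V} {E : Finset V} {par : V → V}
  {lev : V → ℕ} {h : ℕ}

theorem AltTree.chain (T : AltTree G m r E par lev h) :
    ∀ n x, x ∈ E → lev x ≤ n → ∃ j, j ≤ lev x ∧ par^[j] x = r ∧
      (∀ i, i < j → par^[i] x ∈ E ∧ par^[i] x ≠ r) ∧
      (∀ i i', i < i' → i' ≤ j → lev (par^[i'] x) < lev (par^[i] x)) := by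
  intro n
  induction n with
  | zero =>
    intro x hx hl
    by_cases hxr : x = r
    · exact ⟨0, Nat.zero_le _, hxr, fun i hi => absurd hi (Nat.not_lt_zero _),
        fun i i' h1 h2 => by omega⟩
    · have := T.par_lev x hx hxr
      omega
  | succ n ih =>
    intro x hx hl
    by_cases hxr : x = r
    · exact ⟨0, Nat.zero_le _, hxr, fun i hi => absurd hi (Nat.not_lt_zero _),
        fun i i' h1 h2 => by omega⟩
    · have h1 := T.par_mem x hx hxr
      have h2 := T.par_lev x hx hxr
      obtain ⟨j, hj, hr, hmem, hlev⟩ := ih (par x) h1 (by omega)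
      refine ⟨j + 1, by omega, ?_, ?_, ?_⟩
      · rw [Function.iterate_succ_apply]
        exact hr
      · intro i hi
        cases i with
        | zero => exact ⟨hx, hxr⟩
        | succ i =>
          rw [Function.iterate_succ_apply]
          exact hmem i (by omega)
      · intro i i' hii' hi'
        obtain ⟨i'', rfl⟩ : ∃ i'', i' = i'' + 1 := ⟨i' - 1, by omega⟩
        rw [Function.iterate_succ_apply]
        cases i with
        | zero =>
          rcases Nat.eq_zero_or_pos i'' with c | c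
          · subst c
            exact h2
          · have := hlev 0 i'' c (by omega)
            exact lt_trans this h2
        | succ i =>
          rw [Function.iterate_succ_apply]
          exact hlev i i'' (by omega) (by omega)

end chain

section join

variable {G : SimpleGraph V} {m : V → V}

theorem aug_of_trees (hm : IsPartner G m) {u v : V} (hu : m u = u) (hv : m v = v)
    {Eu Ev : Finset V} {pu pv : V → V} {lu lv : V → ℕ} {h1 h2 : ℕ}
    (Tu : AltTree G m u Eu pu lu h1) (Tv : AltTree G m v Ev pv lv h2)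
    (hc : Cross m Eu Ev) {a b : V} (ha : a ∈ Eu) (hb : b ∈ Ev) (hab : G.Adj a b) :
    ∃ k x, Aug G m k x ∧ k ≤ h1 + h2 := by
  obtain ⟨j, hj, hjr, hjm, hjl⟩ := Tu.chain (lu a) a ha le_rfl
  obtain ⟨j', hj', hjr', hjm', hjl'⟩ := Tv.chain (lv b) b hb le_rfl
  have cmem : ∀ i, i ≤ j → pu^[i] a ∈ Eu := by
    intro i hi
    rcases Nat.lt_or_ge i j with c | c
    · exact (hjm i c).1
    · have : i = j := by omega
      subst this
      rw [hjr]
      exact Tu.root_mem
  have cmem' : ∀ i, i ≤ j' → pv^[i] b ∈ Ev := by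
    intro i hi
    rcases Nat.lt_or_ge i j' with c | c
    · exact (hjm' i c).1
    · have : i = j' := by omega
      subst this
      rw [hjr']
      exact Tv.root_mem
  have cinj : ∀ i i', i ≤ j → i' ≤ j → pu^[i] a = pu^[i'] a → i = i' := by
    intro i i' hi hi' he
    by_contra hne
    rcases Nat.lt_or_gt_of_ne hne with c | c
    · have := hjl i i' c hi'
      rw [he] at this
      omega
    · have := hjl i' i c hi
      rw [he] at this
      omega
  have cinj' : ∀ i i', i ≤ j' → i' ≤ j' → pv^[i] b = pv^[i'] b → i = i' := by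
    intro i i' hi hi' he
    by_contra hne
    rcases Nat.lt_or_gt_of_ne hne with c | c
    · have := hjl' i i' c hi'
      rw [he] at this
      omega
    · have := hjl' i' i c hi
      rw [he] at this
      omega
  obtain ⟨x, xlo, xhi⟩ : ∃ x : ℕ → V, (∀ s, s ≤ j → x s = m (pu^[j - s] a)) ∧
      (∀ s, j < s → x s = pv^[s - (j + 1)] b) := by
    refine ⟨fun s => if s ≤ j then m (pu^[j - s] a) else pv^[s - (j + 1)] b, ?_, ?_⟩
    · intro s hs
      simp only [hs, if_true]
    · intro s hs
      have e1 : ¬ (s ≤ j) := by omega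
      simp only [e1, if_false]
  have hla := Tu.lev_le a ha
  have hlb := Tv.lev_le b hb
  refine ⟨j + j', x, ⟨?_, ?_, ?_, ?_, ?_, ?_⟩, by omega⟩
  · rw [xlo 0 (Nat.zero_le _), Nat.sub_zero, hjr, hu, hu]
  · rw [xhi _ (by omega)]
    have e : j + j' + 1 - (j + 1) = j' := by omega
    rw [e, hjr', hv]
  · intro s hs1 hsk
    by_cases hs : s ≤ j
    · rw [xlo s hs, hm.invol]
      have := hjm (j - s) (by omega)
      exact fun hh => Tu.nfix _ this.1 this.2 hh.symm
    · rw [xhi s (by omega)]
      have := hjm' (s - (j + 1)) (by omega)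
      exact Tv.nfix _ this.1 this.2
  · intro s hs
    rcases Nat.lt_trichotomy s j with c | c | c
    · rw [xlo s (by omega), xlo (s + 1) (by omega), hm.invol]
      have e : j - s = (j - (s + 1)) + 1 := by omega
      rw [e, Function.iterate_succ_apply']
      have := hjm (j - (s + 1)) (by omega)
      exact Tu.par_adj _ this.1 this.2
    · subst c
      rw [xlo s le_rfl, xhi (s + 1) (by omega), hm.invol]
      simp only [Nat.sub_self, Function.iterate_zero, id]
      exact hab
    · rw [xhi s (by omega), xhi (s + 1) (by omega)]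
      have e : s + 1 - (j + 1) = (s - (j + 1)) + 1 := by omega
      rw [e, Function.iterate_succ_apply']
      have := hjm' (s - (j + 1)) (by omega)
      exact (Tv.par_adj _ this.1 this.2).symm
  · intro s s' hs hs' hh
    by_cases c : s ≤ j <;> by_cases c' : s' ≤ j
    · rw [xlo s c, xlo s' c'] at hh
      have := cinj _ _ (by omega) (by omega) (hm.inj hh)
      omega
    · rw [xlo s c, xhi s' (by omega)] at hh
      exact absurd hh (hc _ (cmem (j - s) (by omega)) _ (cmem' (s' - (j + 1)) (by omega))).2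
    · rw [xhi s (by omega), xlo s' c'] at hh
      exact absurd hh.symm
        (hc _ (cmem (j - s') (by omega)) _ (cmem' (s - (j + 1)) (by omega))).2
    · rw [xhi s (by omega), xhi s' (by omega)] at hh
      have := cinj' _ _ (by omega) (by omega) hh
      omega
  · intro s s' hs hs' hh
    by_cases c : s ≤ j <;> by_cases c' : s' ≤ j
    · rw [xlo s c, xlo s' c', hm.invol] at hh
      have hy := cmem (j - s') (by omega)
      have hmy : m (pu^[j - s'] a) ∈ Eu := by
        rw [← hh]
        exact cmem (j - s) (by omega)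
      have e := Tu.odd_not _ hy hmy
      rw [e, hu] at hh
      have := cinj _ _ (by omega) (by omega) (hh.trans e.symm)
      omega
    · rw [xlo s c, xhi s' (by omega), hm.invol] at hh
      exact absurd hh (hc _ (cmem (j - s) (by omega)) _ (cmem' (s' - (j + 1)) (by omega))).1
    · rw [xhi s (by omega), xlo s' c'] at hh
      exact absurd (hm.inj hh).symm
        (hc _ (cmem (j - s') (by omega)) _ (cmem' (s - (j + 1)) (by omega))).1
    · rw [xhi s (by omega), xhi s' (by omega)] at hh
      have hy := cmem' (s - (j + 1)) (by omega)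
      have hmy : m (pv^[s - (j + 1)] b) ∈ Ev := by
        rw [hh]
        exact cmem' (s' - (j + 1)) (by omega)
      have e := Tv.odd_not _ hy hmy
      rw [e, hv] at hh
      have := cinj' _ _ (by omega) (by omega) (e.trans hh)
      omega

end join

section extend

variable {G : SimpleGraph V} {m : V → V}

theorem AltTree.extend (hm : IsPartner G m) {r : V} {E : Finset V} {par : V → V}
    {lev : V → ℕ} {h : ℕ} (T : AltTree G m r E par lev h) (Y : Finset V)
    (Y1 : ∀ y ∈ Y, ∃ x ∈ E, G.Adj x y) (Y2 : ∀ y ∈ Y, m y ≠ y)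
    (Y3 : ∀ y ∈ Y, y ∉ E ∧ m y ∉ E) (Y4 : ∀ y ∈ Y, m y ∉ Y) :
    ∃ par' lev', AltTree G m r (E ∪ Y.image m) par' lev' (h + 1) := by
  obtain ⟨par', hpE, hpN⟩ : ∃ par' : V → V, (∀ z ∈ E, par' z = par z) ∧
      (∀ z, z ∉ E → (∃ x ∈ E, G.Adj x (m z)) → par' z ∈ E ∧ G.Adj (par' z) (m z)) := by
    refine ⟨fun z => if z ∈ E then par z else
      if hx : ∃ x ∈ E, G.Adj x (m z) then hx.choose else z, ?_, ?_⟩
    · intro z hz
      simp only [hz, if_true]
    · intro z hz hx
      simp only [hz, if_false, dif_pos hx]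
      exact hx.choose_spec
  obtain ⟨lev', hlE, hlN⟩ : ∃ lev' : V → ℕ, (∀ z ∈ E, lev' z = lev z) ∧
      (∀ z, z ∉ E → lev' z = h + 1) := by
    refine ⟨fun z => if z ∈ E then lev z else h + 1, ?_, ?_⟩
    · intro z hz
      simp only [hz, if_true]
    · intro z hz
      simp only [hz, if_false]
  have key : ∀ z, z ∈ E ∪ Y.image m → z ∉ E → ∃ y ∈ Y, m y = z := by
    intro z hz hzE
    rcases Finset.mem_union.mp hz with c | c
    · exact absurd c hzE
    · exact Finset.mem_image.mp c
  refine ⟨par', lev', ⟨?_, ?_, ?_, ?_, ?_, ?_, ?_⟩⟩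
  · exact Finset.mem_union_left _ T.root_mem
  · intro z hz hzr
    by_cases hzE : z ∈ E
    · exact T.nfix z hzE hzr
    · obtain ⟨y, hy, rfl⟩ := key z hz hzE
      rw [hm.invol]
      exact fun hh => Y2 y hy hh.symm
  · intro z hz hzr
    by_cases hzE : z ∈ E
    · rw [hpE z hzE]
      exact Finset.mem_union_left _ (T.par_mem z hzE hzr)
    · obtain ⟨y, hy, rfl⟩ := key z hz hzE
      have hx : ∃ x ∈ E, G.Adj x (m (m y)) := by
        rw [hm.invol]
        exact Y1 y hy
      exact Finset.mem_union_left _ (hpN _ hzE hx).1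
  · intro z hz hzr
    by_cases hzE : z ∈ E
    · rw [hpE z hzE, hlE z hzE, hlE _ (T.par_mem z hzE hzr)]
      exact T.par_lev z hzE hzr
    · obtain ⟨y, hy, rfl⟩ := key z hz hzE
      have hx : ∃ x ∈ E, G.Adj x (m (m y)) := by
        rw [hm.invol]
        exact Y1 y hy
      have hp := (hpN _ hzE hx).1
      rw [hlN _ hzE, hlE _ hp]
      have := T.lev_le _ hp
      omega
  · intro z hz hzr
    by_cases hzE : z ∈ E
    · rw [hpE z hzE]
      exact T.par_adj z hzE hzr
    · obtain ⟨y, hy, rfl⟩ := key z hz hzE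
      have hx : ∃ x ∈ E, G.Adj x (m (m y)) := by
        rw [hm.invol]
        exact Y1 y hy
      exact (hpN _ hzE hx).2
  · intro z hz hmz
    by_cases hzE : z ∈ E
    · by_cases hmzE : m z ∈ E
      · exact T.odd_not z hzE hmzE
      · exfalso
        obtain ⟨y, hy, he⟩ := key _ hmz hmzE
        have : y = z := hm.inj he
        subst this
        exact (Y3 y hy).1 hzE
    · exfalso
      obtain ⟨y, hy, rfl⟩ := key z hz hzE
      rw [hm.invol] at hmz
      by_cases hyE : y ∈ E
      · exact (Y3 y hy).1 hyE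
      · obtain ⟨y', hy', he⟩ := key _ hmz hyE
        rw [← he] at hy
        exact Y4 y' hy' hy
  · intro z hz
    by_cases hzE : z ∈ E
    · rw [hlE z hzE]
      have := T.lev_le z hzE
      omega
    · rw [hlN z hzE]

theorem exists_partnerfree (hinv : ∀ x, m (m x) = x) :
    ∀ (c : ℕ) (W : Finset V), (∀ y ∈ W, m y ≠ y) → 2 * c ≤ W.card →
      ∃ Y, Y ⊆ W ∧ Y.card = c ∧ ∀ y ∈ Y, m y ∉ Y := by
  intro c
  induction c with
  | zero =>
    intro W _ _
    exact ⟨∅, Finset.empty_subset _, rfl, fun y hy => absurd hy (Finset.notMem_empty y)⟩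
  | succ c ih =>
    intro W hW hc
    have hne : W.Nonempty := by
      rw [← Finset.card_pos]
      omega
    obtain ⟨y, hy⟩ := hne
    have hcard : 2 * c ≤ ((W.erase y).erase (m y)).card := by
      have h1 := Finset.card_erase_of_mem hy
      have h2 := Finset.pred_card_le_card_erase (s := W.erase y) (a := m y)
      omega
    obtain ⟨Y', hsub, hcardY, hfree⟩ := ih ((W.erase y).erase (m y))
      (fun z hz => hW z (Finset.mem_of_mem_erase (Finset.mem_of_mem_erase hz))) hcard
    have hyY : y ∉ Y' := fun hh =>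
      (Finset.mem_erase.mp (Finset.mem_erase.mp (hsub hh)).2).1 rfl
    have hmyY : m y ∉ Y' := fun hh => (Finset.mem_erase.mp (hsub hh)).1 rfl
    refine ⟨insert y Y', ?_, ?_, ?_⟩
    · intro z hz
      rcases Finset.mem_insert.mp hz with rfl | hz'
      · exact hy
      · exact Finset.mem_of_mem_erase (Finset.mem_of_mem_erase (hsub hz'))
    · rw [Finset.card_insert_of_notMem hyY, hcardY]
    · intro z hz hmz
      rcases Finset.mem_insert.mp hz with rfl | hz'
      · rcases Finset.mem_insert.mp hmz with e | e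
        · exact hW z hy e
        · exact hmyY e
      · rcases Finset.mem_insert.mp hmz with e | e
        · have : z = m y := by rw [← e, hinv]
          rw [this] at hz'
          exact hmyY hz'
        · exact hfree z hz' e

end extend

section grow

variable [Fintype V] {G : SimpleGraph V} {m : V → V}

/-- the outer vertex boundary of `S` -/
noncomputable def bdry (G : SimpleGraph V) (S : Finset V) : Finset V :=
  Finset.univ.filter (fun y => y ∉ S ∧ ∃ x ∈ S, G.Adj x y)

theorem mem_bdry {S : Finset V} {y : V} :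
    y ∈ bdry G S ↔ y ∉ S ∧ ∃ x ∈ S, G.Adj x y := by
  simp only [bdry, Finset.mem_filter, Finset.mem_univ, true_and]

theorem grow_step (hm : IsPartner G m) {u v : V}
    (hfix : ∀ y, m y = y → y = u ∨ y = v)
    {Eu Ev : Finset V} {pu pv : V → V} {lu lv : V → ℕ} {h : ℕ}
    (Tu : AltTree G m u Eu pu lu h) (Tv : AltTree G m v Ev pv lv h) (hc : Cross m Eu Ev)
    {a c : ℕ} (hEu : Eu.card = a) (hEv : Ev.card = a)
    (hBu : 4 * c + 3 * a ≤ (bdry G Eu).card) (hBv : 4 * c + 3 * a ≤ (bdry G Ev).card) :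
    ∃ Eu' Ev' pu' pv' lu' lv', AltTree G m u Eu' pu' lu' (h + 1) ∧
      AltTree G m v Ev' pv' lv' (h + 1) ∧ Cross m Eu' Ev' ∧
      Eu'.card = a + c ∧ Ev'.card = a + c := by
  have minj : Function.Injective m := fun x y hxy => hm.inj hxy
  have cimg : ∀ S : Finset V, (S.image m).card = S.card :=
    fun S => Finset.card_image_of_injective S minj
  -- the new odd vertices of the first tree
  obtain ⟨Wu, hWu⟩ : ∃ W : Finset V, W = bdry G Eu \ (Eu.image m ∪ (Ev ∪ Ev.image m)) :=
    ⟨_, rfl⟩
  have hWu_card : 4 * c ≤ Wu.card := by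
    have h1 := Finset.le_card_sdiff (Eu.image m ∪ (Ev ∪ Ev.image m)) (bdry G Eu)
    rw [← hWu] at h1
    have h2 := Finset.card_union_le (Eu.image m) (Ev ∪ Ev.image m)
    have h3 := Finset.card_union_le Ev (Ev.image m)
    rw [cimg] at h2 h3
    omega
  have hWu_mem : ∀ y ∈ Wu, (y ∉ Eu ∧ ∃ x ∈ Eu, G.Adj x y) ∧ y ∉ Eu.image m ∧ y ∉ Ev ∧
      y ∉ Ev.image m := by
    intro y hy
    rw [hWu, Finset.mem_sdiff, mem_bdry] at hy
    refine ⟨hy.1, fun hh => hy.2 (Finset.mem_union_left _ hh),
      fun hh => hy.2 (Finset.mem_union_right _ (Finset.mem_union_left _ hh)),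
      fun hh => hy.2 (Finset.mem_union_right _ (Finset.mem_union_right _ hh))⟩
  have hnf : ∀ y, y ∉ Eu → y ∉ Ev → m y ≠ y := by
    intro y h1 h2 hh
    rcases hfix y hh with e | e
    · exact h1 (e ▸ Tu.root_mem)
    · exact h2 (e ▸ Tv.root_mem)
  obtain ⟨Yu, hYu_sub, hYu_card, hYu_free⟩ := exists_partnerfree hm.invol c Wu
    (fun y hy => hnf y (hWu_mem y hy).1.1 (hWu_mem y hy).2.2.1) (by omega)
  -- the new odd vertices of the second tree
  obtain ⟨Wv, hWv⟩ : ∃ W : Finset V,
      W = bdry G Ev \ ((Ev.image m ∪ (Eu ∪ Eu.image m)) ∪ (Yu ∪ Yu.image m)) := ⟨_, rfl⟩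
  have hWv_card : 2 * c ≤ Wv.card := by
    have h1 := Finset.le_card_sdiff ((Ev.image m ∪ (Eu ∪ Eu.image m)) ∪ (Yu ∪ Yu.image m))
      (bdry G Ev)
    rw [← hWv] at h1
    have h2 := Finset.card_union_le (Ev.image m ∪ (Eu ∪ Eu.image m)) (Yu ∪ Yu.image m)
    have h3 := Finset.card_union_le (Ev.image m) (Eu ∪ Eu.image m)
    have h4 := Finset.card_union_le Eu (Eu.image m)
    have h5 := Finset.card_union_le Yu (Yu.image m)
    rw [cimg] at h3 h4 h5
    omega
  have hWv_mem : ∀ y ∈ Wv, (y ∉ Ev ∧ ∃ x ∈ Ev, G.Adj x y) ∧ y ∉ Ev.image m ∧ y ∉ Eu ∧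
      y ∉ Eu.image m ∧ y ∉ Yu ∧ y ∉ Yu.image m := by
    intro y hy
    rw [hWv, Finset.mem_sdiff, mem_bdry] at hy
    refine ⟨hy.1,
      fun hh => hy.2 (Finset.mem_union_left _ (Finset.mem_union_left _ hh)),
      fun hh => hy.2 (Finset.mem_union_left _
        (Finset.mem_union_right _ (Finset.mem_union_left _ hh))),
      fun hh => hy.2 (Finset.mem_union_left _
        (Finset.mem_union_right _ (Finset.mem_union_right _ hh))),
      fun hh => hy.2 (Finset.mem_union_right _ (Finset.mem_union_left _ hh)),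
      fun hh => hy.2 (Finset.mem_union_right _ (Finset.mem_union_right _ hh))⟩
  obtain ⟨Yv, hYv_sub, hYv_card, hYv_free⟩ := exists_partnerfree hm.invol c Wv
    (fun y hy => hnf y (hWv_mem y hy).2.2.1 (hWv_mem y hy).1.1) (by omega)
  -- membership facts
  have mem_img : ∀ (S : Finset V) (y : V), m y ∈ S → y ∈ S.image m := by
    intro S y hy
    exact Finset.mem_image.mpr ⟨m y, hy, hm.invol y⟩
  have fu : ∀ y ∈ Yu, (y ∉ Eu ∧ ∃ x ∈ Eu, G.Adj x y) ∧ y ∉ Eu.image m ∧ y ∉ Ev ∧
      y ∉ Ev.image m := fun y hy => hWu_mem y (hYu_sub hy)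
  have fv : ∀ y ∈ Yv, (y ∉ Ev ∧ ∃ x ∈ Ev, G.Adj x y) ∧ y ∉ Ev.image m ∧ y ∉ Eu ∧
      y ∉ Eu.image m ∧ y ∉ Yu ∧ y ∉ Yu.image m := fun y hy => hWv_mem y (hYv_sub hy)
  obtain ⟨pu', lu', Tu'⟩ := Tu.extend hm Yu (fun y hy => (fu y hy).1.2)
    (fun y hy => hnf y (fu y hy).1.1 (fu y hy).2.2.1)
    (fun y hy => ⟨(fu y hy).1.1, fun hh => (fu y hy).2.1 (mem_img _ _ hh)⟩) hYu_free
  obtain ⟨pv', lv', Tv'⟩ := Tv.extend hm Yv (fun y hy => (fv y hy).1.2)
    (fun y hy => hnf y (fv y hy).2.2.1 (fv y hy).1.1)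
    (fun y hy => ⟨(fv y hy).1.1, fun hh => (fv y hy).2.1 (mem_img _ _ hh)⟩) hYv_free
  refine ⟨Eu ∪ Yu.image m, Ev ∪ Yv.image m, pu', pv', lu', lv', Tu', Tv', ?_, ?_, ?_⟩
  · intro a' ha' b' hb'
    rcases Finset.mem_union.mp ha' with ca | ca <;> rcases Finset.mem_union.mp hb' with cb | cb
    · exact hc a' ca b' cb
    · obtain ⟨y', hy', rfl⟩ := Finset.mem_image.mp cb
      refine ⟨fun hh => ?_, fun hh => ?_⟩
      · exact (fv y' hy').2.2.2.1 (mem_img _ _ (by rw [← hh]; exact ca))
      · exact (fv y' hy').2.2.1 (by rw [← hm.inj hh]; exact ca)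
    · obtain ⟨y, hy, rfl⟩ := Finset.mem_image.mp ca
      refine ⟨fun hh => ?_, fun hh => ?_⟩
      · exact (fu y hy).2.2.2 (mem_img _ _ (by rw [hh]; exact cb))
      · rw [hm.invol] at hh
        exact (fu y hy).2.2.1 (by rw [hh]; exact cb)
    · obtain ⟨y, hy, rfl⟩ := Finset.mem_image.mp ca
      obtain ⟨y', hy', rfl⟩ := Finset.mem_image.mp cb
      refine ⟨fun hh => ?_, fun hh => ?_⟩
      · exact (fv y' hy').2.2.2.2.1 (by rw [← hm.inj hh]; exact hy)
      · rw [hm.invol] at hh
        apply (fv y' hy').2.2.2.2.2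
        exact mem_img _ _ (by rw [← hh]; exact hy)
  · rw [Finset.card_union_of_disjoint, cimg, hEu, hYu_card]
    rw [Finset.disjoint_left]
    intro z hz hz'
    obtain ⟨y, hy, rfl⟩ := Finset.mem_image.mp hz'
    exact (fu y hy).2.1 (mem_img _ _ hz)
  · rw [Finset.card_union_of_disjoint, cimg, hEv, hYv_card]
    rw [Finset.disjoint_left]
    intro z hz hz'
    obtain ⟨y, hy, rfl⟩ := Finset.mem_image.mp hz'
    exact (fv y hy).2.1 (mem_img _ _ hz)

/-- **Short augmenting sequences from vertex expansion.** -/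
theorem exists_aug_of_expansion (hm : IsPartner G m) {u v : V} (huv : u ≠ v)
    (hu : m u = u) (hv : m v = v) (hfix : ∀ y, m y = y → y = u ∨ y = v)
    (g t : ℕ) (hg : 1 ≤ g)
    (E1 : ∀ S : Finset V, S.card * g ≤ g ^ t → 4 * g * S.card ≤ (bdry G S).card + S.card)
    (E2 : ∀ S T : Finset V, S.card = g ^ t → T.card = g ^ t → Disjoint S T →
      ∃ x ∈ S, ∃ y ∈ T, G.Adj x y) :
    ∃ k x, Aug G m k x ∧ k ≤ 2 * t := by
  have main : ∀ r, r ≤ t → ∃ Eu Ev pu pv lu lv, AltTree G m u Eu pu lu r ∧
      AltTree G m v Ev pv lv r ∧ Cross m Eu Ev ∧ Eu.card = g ^ r ∧ Ev.card = g ^ r := by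
    intro r
    induction r with
    | zero =>
      intro _
      refine ⟨{u}, {v}, id, id, fun _ => 0, fun _ => 0, ?_, ?_, ?_, ?_, ?_⟩
      · refine ⟨Finset.mem_singleton_self u, ?_, ?_, ?_, ?_, ?_, ?_⟩
        · intro x hx hxr
          exact absurd (Finset.mem_singleton.mp hx) hxr
        · intro x hx hxr
          exact absurd (Finset.mem_singleton.mp hx) hxr
        · intro x hx hxr
          exact absurd (Finset.mem_singleton.mp hx) hxr
        · intro x hx hxr
          exact absurd (Finset.mem_singleton.mp hx) hxr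
        · intro x hx _
          exact Finset.mem_singleton.mp hx
        · intro x _
          exact le_rfl
      · refine ⟨Finset.mem_singleton_self v, ?_, ?_, ?_, ?_, ?_, ?_⟩
        · intro x hx hxr
          exact absurd (Finset.mem_singleton.mp hx) hxr
        · intro x hx hxr
          exact absurd (Finset.mem_singleton.mp hx) hxr
        · intro x hx hxr
          exact absurd (Finset.mem_singleton.mp hx) hxr
        · intro x hx hxr
          exact absurd (Finset.mem_singleton.mp hx) hxr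
        · intro x hx _
          exact Finset.mem_singleton.mp hx
        · intro x _
          exact le_rfl
      · intro a ha b hb
        rw [Finset.mem_singleton.mp ha, Finset.mem_singleton.mp hb, hu]
        exact ⟨huv, huv⟩
      · rw [Finset.card_singleton, pow_zero]
      · rw [Finset.card_singleton, pow_zero]
    | succ r ih =>
      intro hr
      obtain ⟨Eu, Ev, pu, pv, lu, lv, Tu, Tv, hc, hEu, hEv⟩ := ih (by omega)
      have hpow : g ^ r * g ≤ g ^ t := by
        rw [← pow_succ]
        exact Nat.pow_le_pow_right hg hr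
      have e1 := E1 Eu (by rw [hEu]; exact hpow)
      have e2 := E1 Ev (by rw [hEv]; exact hpow)
      rw [hEu] at e1
      rw [hEv] at e2
      obtain ⟨c, hc'⟩ : ∃ c, c + g ^ r = g * g ^ r :=
        ⟨g * g ^ r - g ^ r, Nat.sub_add_cancel (Nat.le_mul_of_pos_left _ hg)⟩
      have e3 : 4 * g * g ^ r = 4 * (g * g ^ r) := by ring
      rw [e3] at e1 e2
      obtain ⟨Eu', Ev', pu', pv', lu', lv', Tu', Tv', hc2, hEu', hEv'⟩ :=
        grow_step hm hfix Tu Tv hc hEu hEv (c := c) (by omega) (by omega)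
      have e4 : g ^ (r + 1) = g * g ^ r := by ring
      exact ⟨Eu', Ev', pu', pv', lu', lv', Tu', Tv', hc2, by rw [hEu', e4]; omega,
        by rw [hEv', e4]; omega⟩
  obtain ⟨Eu, Ev, pu, pv, lu, lv, Tu, Tv, hc, hEu, hEv⟩ := main t le_rfl
  have hdisj : Disjoint Eu Ev := Finset.disjoint_left.mpr (fun a ha hb => (hc a ha a hb).1 rfl)
  obtain ⟨a, ha, b, hb, hab⟩ := E2 Eu Ev hEu hEv hdisj
  obtain ⟨k, x, hx, hk⟩ := aug_of_trees hm hu hv Tu Tv hc ha hb hab
  exact ⟨k, x, hx, by omega⟩

end grow

end Vale.Agent.Lib.P308
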