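import Vale.Agent.Lib.P308.Grow
import Vale.Agent.Lib.P308.Core

/-!
# Alternating trees opened by labels

A level of an alternating tree is recorded by its frontier `S` of even vertices and the set
`U` of all vertices used so far.  Every frontier vertex is the end of a simple alternating
path from the root all of whose steps are opened by the labels of their level.  One level of
growth doubles the frontier as soon as the labeling of the new level opens enough vertices.
-/

namespace Vale.Agent.Lib.P308

open Classical

variable {V : Type*}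

/-- a simple alternating path from the root `r` with `i` steps, the step number `s` being
opened by the label of level `s` at its even vertex -/
structure LPath (G : SimpleGraph V) (m : V → V) {q : ℕ} (blk : V → V → Fin q) (r : V)
    (lab : ℕ → V → Fin q) (i : ℕ) (p : ℕ → V) : Prop where
  start : p 0 = r
  adj : ∀ s, s < i → G.Adj (m (p s)) (p (s + 1))
  opn : ∀ s, s < i → lab s (m (p s)) = blk (m (p s)) (p (s + 1))
  nfix : ∀ s, 1 ≤ s → s ≤ i → m (p s) ≠ p s
  inj : ∀ s s', s ≤ i → s' ≤ i → p s = p s' → s = s'
  nopair : ∀ s s', s ≤ i → s' ≤ i → m (p s) = p s' → s = s'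

theorem LPath.congr_lab {G : SimpleGraph V} {m : V → V} {q : ℕ} {blk : V → V → Fin q} {r : V}
    {lab lab' : ℕ → V → Fin q} {i : ℕ} {p : ℕ → V} (h : LPath G m blk r lab i p)
    (hl : ∀ s, s < i → lab' s = lab s) : LPath G m blk r lab' i p :=
  ⟨h.start, h.adj, fun s hs => by rw [hl s hs]; exact h.opn s hs, h.nfix, h.inj, h.nopair⟩

/-- a level of an alternating tree with root `r`: frontier `S`, used vertices `U` -/
structure TreeOK (G : SimpleGraph V) (m : V → V) {q : ℕ} (blk : V → V → Fin q) (r : V)
    (lab : ℕ → V → Fin q) (i : ℕ) (S U : Finset V) : Prop where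
  path : ∀ y ∈ S, ∃ p, LPath G m blk r lab i p ∧ m (p i) = y ∧ ∀ s, s ≤ i → p s ∈ U
  root : r ∈ U
  closed : ∀ z ∈ U, m z ∈ U
  cardS : S.card = 2 ^ i
  cardU : U.card ≤ 4 * 2 ^ i

theorem TreeOK.congr_lab {G : SimpleGraph V} {m : V → V} {q : ℕ} {blk : V → V → Fin q} {r : V}
    {lab lab' : ℕ → V → Fin q} {i : ℕ} {S U : Finset V} (h : TreeOK G m blk r lab i S U)
    (hl : ∀ s, s < i → lab' s = lab s) : TreeOK G m blk r lab' i S U := by
  refine ⟨?_, h.root, h.closed, h.cardS, h.cardU⟩
  intro y hy
  obtain ⟨p, hp, hpy, hpU⟩ := h.path y hy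
  exact ⟨p, hp.congr_lab hl, hpy, hpU⟩

theorem tree_zero (G : SimpleGraph V) {m : V → V} {q : ℕ} (blk : V → V → Fin q) {r : V}
    (lab : ℕ → V → Fin q) (hr : m r = r) : TreeOK G m blk r lab 0 {r} {r} := by
  refine ⟨?_, Finset.mem_singleton_self r, ?_, by simp, by simp⟩
  · intro y hy
    rw [Finset.mem_singleton] at hy
    subst hy
    refine ⟨fun _ => y, ⟨rfl, ?_, ?_, ?_, ?_, ?_⟩, hr, ?_⟩
    · intro s hs
      omega
    · intro s hs
      omega
    · intro s h1 h2
      omega
    · intro s s' h1 h2 _
      omega
    · intro s s' h1 h2 _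
      omega
    · intro s _
      exact Finset.mem_singleton_self _
  · intro z hz
    rw [Finset.mem_singleton] at hz
    rw [hz, hr]
    exact Finset.mem_singleton_self r

/-- half of a set of non-fixed points contains no pair of partners -/
theorem exists_half (m : V → V) (hinv : ∀ z, m (m z) = z) :
    ∀ (n : ℕ) (X : Finset V), X.card ≤ n → (∀ x ∈ X, m x ≠ x) →
      ∃ Y, Y ⊆ X ∧ (∀ x ∈ Y, m x ∉ Y) ∧ X.card ≤ 2 * Y.card := by
  intro n
  induction n with
  | zero =>
    intro X hX _
    refine ⟨∅, Finset.empty_subset _, ?_, by omega⟩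
    intro x hx
    exact absurd hx (Finset.notMem_empty x)
  | succ n ih =>
    intro X hX hne
    rcases Finset.eq_empty_or_nonempty X with h0 | ⟨x, hx⟩
    · subst h0
      refine ⟨∅, Finset.empty_subset _, ?_, by simp⟩
      intro x hx
      exact absurd hx (Finset.notMem_empty x)
    · have hc1 : (X.erase x).card = X.card - 1 := Finset.card_erase_of_mem hx
      have hc2 : (X.erase x).card - 1 ≤ ((X.erase x).erase (m x)).card :=
        Finset.pred_card_le_card_erase
      have hc3 : ((X.erase x).erase (m x)).card ≤ (X.erase x).card := Finset.card_erase_le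
      have hsub : (X.erase x).erase (m x) ⊆ X :=
        (Finset.erase_subset _ _).trans (Finset.erase_subset _ _)
      obtain ⟨Y₁, hY₁, hprop, hcard⟩ := ih ((X.erase x).erase (m x)) (by omega)
        (fun z hz => hne z (hsub hz))
      have hx1 : x ∉ Y₁ := by
        intro h
        have := hY₁ h
        rw [Finset.mem_erase, Finset.mem_erase] at this
        exact this.2.1 rfl
      have hx2 : m x ∉ Y₁ := by
        intro h
        have := hY₁ h
        rw [Finset.mem_erase] at this
        exact this.1 rfl
      refine ⟨insert x Y₁, ?_, ?_, ?_⟩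
      · intro z hz
        rw [Finset.mem_insert] at hz
        rcases hz with rfl | hz
        · exact hx
        · exact hsub (hY₁ hz)
      · intro z hz
        rw [Finset.mem_insert] at hz
        rw [Finset.mem_insert]
        rcases hz with rfl | hz
        · rintro (h | h)
          · exact hne z hx h
          · exact hx2 h
        · rintro (h | h)
          · apply hx2
            rw [← h, hinv]
            exact hz
          · exact hprop z hz h
      · rw [Finset.card_insert_of_notMem hx1]
        omega

/-- **One level of growth of a tree.** -/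
theorem tree_extend [Fintype V] {G : SimpleGraph V} [DecidableRel G.Adj] {m : V → V} {q : ℕ}
    {blk : V → V → Fin q} {r : V} {lab : ℕ → V → Fin q} {i : ℕ} {S U Uo : Finset V}
    (hinv : ∀ z, m (m z) = z) (hT : TreeOK G m blk r lab i S U) (hUo : ∀ z ∈ Uo, m z ∈ Uo)
    (hdisj : Disjoint U Uo) (hfix : ∀ z, m z = z → z ∈ U ∪ Uo)
    (a : V → Fin q) (hbig : 4 * S.card ≤ (newOdd G blk S (U ∪ Uo) a).card)
    {lab' : ℕ → V → Fin q} (hl : ∀ s, s < i → lab' s = lab s) (hli : lab' i = a) :
    ∃ S' U', TreeOK G m blk r lab' (i + 1) S' U' ∧ Disjoint U' Uo := by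
  have hminj : Function.Injective m := by
    intro z z' h
    have := congrArg m h
    rwa [hinv, hinv] at this
  have hX : ∀ x ∈ newOdd G blk S (U ∪ Uo) a,
      x ∉ U ∧ x ∉ Uo ∧ ∃ y ∈ S, G.Adj y x ∧ a y = blk y x := by
    intro x hx
    simp only [newOdd, Finset.mem_filter, Finset.mem_univ, true_and, Finset.mem_union,
      not_or] at hx
    exact ⟨hx.1.1, hx.1.2, hx.2⟩
  have hXne : ∀ x ∈ newOdd G blk S (U ∪ Uo) a, m x ≠ x := by
    intro x hx h
    have := hfix x h
    rw [Finset.mem_union] at this
    rcases this with h' | h'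
    · exact (hX x hx).1 h'
    · exact (hX x hx).2.1 h'
  obtain ⟨Y, hYsub, hYprop, hYcard⟩ := exists_half m hinv _ _ le_rfl hXne
  obtain ⟨X2, hX2sub, hX2card⟩ := Finset.exists_subset_card_eq (s := Y) (n := 2 * S.card)
    (by omega)
  have hx2 : ∀ x ∈ X2, x ∉ U ∧ x ∉ Uo ∧ m x ∉ U ∧ m x ∉ Uo ∧ m x ∉ X2 ∧ m x ≠ x ∧
      ∃ y ∈ S, G.Adj y x ∧ a y = blk y x := by
    intro x hx
    have hxN := hYsub (hX2sub hx)
    obtain ⟨h1, h2, h3⟩ := hX x hxN
    refine ⟨h1, h2, ?_, ?_, ?_, hXne x hxN, h3⟩
    · intro h
      have := hT.closed _ h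
      rw [hinv] at this
      exact h1 this
    · intro h
      have := hUo _ h
      rw [hinv] at this
      exact h2 this
    · intro h
      exact hYprop x (hX2sub hx) (hX2sub h)
  refine ⟨X2.image m, U ∪ (X2 ∪ X2.image m), ⟨?_, ?_, ?_, ?_, ?_⟩, ?_⟩
  · intro y' hy'
    rw [Finset.mem_image] at hy'
    obtain ⟨x, hx, rfl⟩ := hy'
    obtain ⟨hxU, hxUo, hmxU, hmxUo, hmxX, hmx, y, hy, hadj, hopen⟩ := hx2 x hx
    obtain ⟨p, hp, hpy, hpU⟩ := hT.path y hy
    have hpm : ∀ s, s ≤ i → m (p s) ∈ U := fun s hs => hT.closed _ (hpU s hs)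
    refine ⟨fun s => if s ≤ i then p s else x, ⟨?_, ?_, ?_, ?_, ?_, ?_⟩, ?_, ?_⟩
    · simp only [Nat.zero_le, if_true]
      exact hp.start
    · intro s hs
      rcases Nat.lt_or_ge s i with c | c
      · have c1 : s ≤ i := by omega
        have c2 : s + 1 ≤ i := by omega
        simp only [c1, c2, if_true]
        exact hp.adj s c
      · have c0 : s = i := by omega
        subst c0
        have c2 : ¬ (s + 1 ≤ s) := by omega
        simp only [le_refl, c2, if_true, if_false]
        rw [hpy]
        exact hadj
    · intro s hs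
      rcases Nat.lt_or_ge s i with c | c
      · have c1 : s ≤ i := by omega
        have c2 : s + 1 ≤ i := by omega
        simp only [c1, c2, if_true]
        rw [hl s c]
        exact hp.opn s c
      · have c0 : s = i := by omega
        subst c0
        have c2 : ¬ (s + 1 ≤ s) := by omega
        simp only [le_refl, c2, if_true, if_false]
        rw [hpy, hli]
        exact hopen
    · intro s h1 h2
      rcases Nat.lt_or_ge i s with c | c
      · have c1 : ¬ (s ≤ i) := by omega
        simp only [c1, if_false]
        exact hmx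
      · simp only [c, if_true]
        exact hp.nfix s h1 c
    · intro s s' h1 h2 hh
      by_cases c : s ≤ i <;> by_cases c' : s' ≤ i
      · simp only [c, c', if_true] at hh
        exact hp.inj s s' c c' hh
      · simp only [c, c', if_true, if_false] at hh
        exact absurd (hh ▸ hpU s c) hxU
      · simp only [c, c', if_true, if_false] at hh
        exact absurd (hh ▸ hpU s' c') hxU
      · omega
    · intro s s' h1 h2 hh
      by_cases c : s ≤ i <;> by_cases c' : s' ≤ i
      · simp only [c, c', if_true] at hh
        exact hp.nopair s s' c c' hh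
      · simp only [c, c', if_true, if_false] at hh
        exact absurd (hh ▸ hpm s c) hxU
      · simp only [c, c', if_true, if_false] at hh
        exact absurd (hh ▸ hpU s' c') hmxU
      · omega
    · have c2 : ¬ (i + 1 ≤ i) := by omega
      simp only [c2, if_false]
    · intro s hs
      by_cases c : s ≤ i
      · simp only [c, if_true]
        exact Finset.mem_union_left _ (hpU s c)
      · simp only [c, if_false]
        exact Finset.mem_union_right _ (Finset.mem_union_left _ hx)
  · exact Finset.mem_union_left _ hT.root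
  · intro z hz
    rw [Finset.mem_union, Finset.mem_union] at hz
    rcases hz with hz | hz | hz
    · exact Finset.mem_union_left _ (hT.closed z hz)
    · exact Finset.mem_union_right _ (Finset.mem_union_right _ (Finset.mem_image_of_mem m hz))
    · rw [Finset.mem_image] at hz
      obtain ⟨x, hx, rfl⟩ := hz
      rw [hinv]
      exact Finset.mem_union_right _ (Finset.mem_union_left _ hx)
  · rw [Finset.card_image_of_injective _ hminj, hX2card, hT.cardS]
    ring
  · have h1 : (X2.image m).card = X2.card := Finset.card_image_of_injective _ hminj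
    have h2 := Finset.card_union_le U (X2 ∪ X2.image m)
    have h3 := Finset.card_union_le X2 (X2.image m)
    have h4 := hT.cardU
    have h5 := hT.cardS
    have h6 : 2 ^ (i + 1) = 2 * 2 ^ i := by ring
    omega
  · rw [Finset.disjoint_left]
    intro z hz hzo
    rw [Finset.mem_union, Finset.mem_union] at hz
    rcases hz with hz | hz | hz
    · exact (Finset.disjoint_left.mp hdisj) hz hzo
    · exact (hx2 z hz).2.1 hzo
    · rw [Finset.mem_image] at hz
      obtain ⟨x, hx, rfl⟩ := hz
      exact (hx2 x hx).2.2.2.1 hzo

end Vale.Agent.Lib.P308
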